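import Mathlib

namespace Vale.Agent.P036

open Finset

/-- cross product of 3-vectors -/
def cr {R : Type*} [CommRing R] (x y : Fin 3 → R) : Fin 3 → R :=
  ![x 1 * y 2 - x 2 * y 1, x 2 * y 0 - x 0 * y 2, x 0 * y 1 - x 1 * y 0]

/-- dot product of 3-vectors -/
def dt {R : Type*} [CommRing R] (x y : Fin 3 → R) : R := x 0 * y 0 + x 1 * y 1 + x 2 * y 2

/-- determinant of three 3-vectors -/
def det3 {R : Type*} [CommRing R] (x y z : Fin 3 → R) : R := dt (cr x y) z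

section ring
variable {R : Type*} [CommRing R]

@[simp] lemma cr_zero' (x y : Fin 3 → R) : cr x y 0 = x 1 * y 2 - x 2 * y 1 := rfl
@[simp] lemma cr_one' (x y : Fin 3 → R) : cr x y 1 = x 2 * y 0 - x 0 * y 2 := rfl
@[simp] lemma cr_two' (x y : Fin 3 → R) : cr x y 2 = x 0 * y 1 - x 1 * y 0 := rfl

lemma vec_ext {α : Type*} {x y : Fin 3 → α} (h0 : x 0 = y 0) (h1 : x 1 = y 1) (h2 : x 2 = y 2) :
    x = y := by
  funext i
  fin_cases i
  · exact h0
  · exact h1
  · exact h2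

lemma det3_eq (x y z : Fin 3 → R) : det3 x y z =
    (x 1 * y 2 - x 2 * y 1) * z 0 + (x 2 * y 0 - x 0 * y 2) * z 1 + (x 0 * y 1 - x 1 * y 0) * z 2 := rfl

lemma cr_eq_zero_iff (x y : Fin 3 → R) : cr x y = 0 ↔
    x 1 * y 2 - x 2 * y 1 = 0 ∧ x 2 * y 0 - x 0 * y 2 = 0 ∧ x 0 * y 1 - x 1 * y 0 = 0 := by
  constructor
  · intro h
    exact ⟨congrFun h 0, congrFun h 1, congrFun h 2⟩
  · rintro ⟨h0, h1, h2⟩
    exact vec_ext h0 h1 h2

lemma cr_self (x : Fin 3 → R) : cr x x = 0 := by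
  rw [cr_eq_zero_iff]; refine ⟨by ring, by ring, by ring⟩

lemma cr_comm_zero {x y : Fin 3 → R} (h : cr x y = 0) : cr y x = 0 := by
  rw [cr_eq_zero_iff] at h ⊢
  obtain ⟨h0, h1, h2⟩ := h
  exact ⟨by linear_combination -h0, by linear_combination -h1, by linear_combination -h2⟩

lemma cr_sub_right (w x y : Fin 3 → R) : cr w (x - y) = cr w x - cr w y := by
  apply vec_ext <;> simp <;> ring

end ring

/-- integer 3-vectors -/
abbrev Z3 := Fin 3 → ℤ

/-- sup norm -/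
def nrm (x : Z3) : ℕ := max (max (x 0).natAbs (x 1).natAbs) (x 2).natAbs

lemma le_nrm (x : Z3) (i : Fin 3) : (x i).natAbs ≤ nrm x := by
  unfold nrm
  fin_cases i <;> simp

lemma abs_le_nrm (x : Z3) (i : Fin 3) : |x i| ≤ (nrm x : ℤ) := by
  have := le_nrm x i
  rw [Int.abs_eq_natAbs]; exact_mod_cast this

lemma nrm_le {x : Z3} {R : ℕ} (h : ∀ i, |x i| ≤ (R : ℤ)) : nrm x ≤ R := by
  have h0 := h 0
  have h1 := h 1
  have h2 := h 2
  rw [Int.abs_eq_natAbs] at h0 h1 h2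
  unfold nrm
  omega

lemma exists_nrm (x : Z3) : ∃ j, |x j| = (nrm x : ℤ) := by
  unfold nrm
  rcases le_total (max (x 0).natAbs (x 1).natAbs) (x 2).natAbs with h | h
  · exact ⟨2, by rw [max_eq_right h, Int.abs_eq_natAbs]⟩
  · rw [max_eq_left h]
    rcases le_total (x 0).natAbs (x 1).natAbs with h' | h'
    · exact ⟨1, by rw [max_eq_right h', Int.abs_eq_natAbs]⟩
    · exact ⟨0, by rw [max_eq_left h', Int.abs_eq_natAbs]⟩

lemma nrm_pos {x : Z3} (h : x ≠ 0) : 1 ≤ nrm x := by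
  by_contra hc
  apply h
  funext i
  have := le_nrm x i
  have : (x i).natAbs = 0 := by omega
  simpa using this

lemma nrm_smul (k : ℤ) (x : Z3) : nrm (k • x) = k.natAbs * nrm x := by
  unfold nrm
  simp only [Pi.smul_apply, smul_eq_mul, Int.natAbs_mul]
  rw [Nat.mul_max_mul_left, Nat.mul_max_mul_left]

lemma abs_mul_sub_le {a b c d : ℤ} {A B : ℤ} (ha : |a| ≤ A) (hb : |b| ≤ B) (hc : |c| ≤ A)
    (hd : |d| ≤ B) : |a * b - c * d| ≤ 2 * A * B := by
  have h1 : |a * b| ≤ A * B := by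
    rw [abs_mul]; exact mul_le_mul ha hb (abs_nonneg _) ((abs_nonneg _).trans ha)
  have h2 : |c * d| ≤ A * B := by
    rw [abs_mul]; exact mul_le_mul hc hd (abs_nonneg _) ((abs_nonneg _).trans hc)
  calc |a * b - c * d| ≤ |a * b| + |c * d| := abs_sub _ _
    _ ≤ 2 * A * B := by linarith

lemma nrm_cr_le (x y : Z3) : nrm (cr x y) ≤ 2 * nrm x * nrm y := by
  apply nrm_le
  intro i
  push_cast
  fin_cases i
  · exact abs_mul_sub_le (abs_le_nrm x 1) (abs_le_nrm y 2) (abs_le_nrm x 2) (abs_le_nrm y 1)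
  · exact abs_mul_sub_le (abs_le_nrm x 2) (abs_le_nrm y 0) (abs_le_nrm x 0) (abs_le_nrm y 2)
  · exact abs_mul_sub_le (abs_le_nrm x 0) (abs_le_nrm y 1) (abs_le_nrm x 1) (abs_le_nrm y 0)

lemma cr_zero_mul {w u : Z3} (h : cr w u = 0) (i j : Fin 3) : u i * w j = u j * w i := by
  rw [cr_eq_zero_iff] at h
  obtain ⟨h0, h1, h2⟩ := h
  fin_cases i <;> fin_cases j <;> simp <;> linarith

lemma cr_trans_zero {w a b : Z3} (hw : w ≠ 0) (ha : cr w a = 0) (hb : cr w b = 0) :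
    cr a b = 0 := by
  obtain ⟨j, hj⟩ : ∃ j, w j ≠ 0 := by
    by_contra hc
    push Not at hc
    exact hw (funext hc)
  have key : ∀ i k : Fin 3, a i * b k - a k * b i = 0 := by
    intro i k
    have e1 := cr_zero_mul ha i j
    have e2 := cr_zero_mul ha k j
    have e3 := cr_zero_mul hb i j
    have e4 := cr_zero_mul hb k j
    have : (a i * b k - a k * b i) * (w j * w j) = 0 := by
      linear_combination (b k * w j) * e1 + (a j * w i) * e4 - (b i * w j) * e2 - (a j * w k) * e3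
    rcases mul_eq_zero.1 this with h | h
    · exact h
    · exact absurd h (mul_ne_zero hj hj)
  rw [cr_eq_zero_iff]
  exact ⟨key 1 2, key 2 0, key 0 1⟩

/-- Counting points of a rank two lattice coset in a box. -/
theorem lattice_count (P : Z3 → Prop) (ν : Z3) (R : ℕ)
    (hP : ∀ w w', P w → P w' → ∃ k : ℤ, cr w w' = k • ν)
    (w1 w2 : Z3) (h1 : P w1) (h2 : P w2) (h12 : cr w1 w2 ≠ 0) (hn1 : nrm w1 ≤ R) (hn2 : nrm w2 ≤ R)
    (S : Finset Z3) (hS : ∀ x ∈ S, ∀ y ∈ S, P (x - y) ∧ nrm (x - y) ≤ R) :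
    S.card * nrm ν ≤ 18 * R ^ 2 := by
  classical
  rcases S.eq_empty_or_nonempty with rfl | ⟨x0, hx0⟩
  · simp
  have hw1 : w1 ≠ 0 := by
    rintro rfl
    apply h12
    rw [cr_eq_zero_iff]; simp
  have hex : ∃ n : ℕ, ∃ w, P w ∧ w ≠ 0 ∧ nrm w = n := ⟨_, w1, h1, hw1, rfl⟩
  obtain ⟨w0, hP0, hw0, hn0⟩ := Nat.find_spec hex
  set l := Nat.find hex with hl
  have hmin : ∀ w, P w → w ≠ 0 → l ≤ nrm w := fun w hw hw' =>
    Nat.find_min' hex ⟨w, hw, hw', rfl⟩
  have hl1 : 1 ≤ l := hn0 ▸ nrm_pos hw0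
  have hlR : l ≤ R := (hmin w1 h1 hw1).trans hn1
  have hbound : ∀ w, nrm w ≤ R → ∀ k : ℤ, cr w0 w = k • ν → k.natAbs * nrm ν ≤ 2 * l * R := by
    intro w hw k hk
    rw [← nrm_smul, ← hk]
    refine (nrm_cr_le _ _).trans ?_
    rw [hn0]
    exact Nat.mul_le_mul_left _ hw
  have hνle : nrm ν ≤ 2 * l * R := by
    have : ∃ w, P w ∧ nrm w ≤ R ∧ cr w0 w ≠ 0 := by
      by_contra hc
      push Not at hc
      exact h12 (cr_trans_zero hw0 (hc w1 h1 hn1) (hc w2 h2 hn2))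
    obtain ⟨w, hw, hwR, hne⟩ := this
    obtain ⟨k, hk⟩ := hP w0 w hP0 hw
    have hk0 : k ≠ 0 := by
      rintro rfl
      exact hne (by simpa using hk)
    have := hbound w hwR k hk
    have hk1 : 1 ≤ k.natAbs := Int.natAbs_pos.2 hk0
    calc nrm ν = 1 * nrm ν := (one_mul _).symm
      _ ≤ k.natAbs * nrm ν := Nat.mul_le_mul_right _ hk1
      _ ≤ _ := this
  rcases Nat.eq_zero_or_pos (nrm ν) with hν0 | hνpos
  · rw [hν0]; simp
  obtain ⟨j, hj⟩ := exists_nrm w0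
  rw [hn0] at hj
  have hk : ∀ x ∈ S, ∃ k : ℤ, cr w0 (x - x0) = k • ν := fun x hx =>
    hP w0 _ hP0 (hS x hx x0 hx0).1
  choose! kf hkf using hk
  set M : ℕ := 2 * l * R / nrm ν with hM
  set M2 : ℕ := 2 * R / l with hM2
  have hM1 : 1 ≤ M := by
    rw [hM]; exact (Nat.le_div_iff_mul_le hνpos).2 (by simpa using hνle)
  have hcard : S.card ≤ ((Icc (-(M : ℤ)) M) ×ˢ (Icc (0 : ℤ) M2)).card := by
    apply Finset.card_le_card_of_injOn (fun x => (kf x, (x j - x0 j + R) / l))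
    · intro x hx
      have hx' : x ∈ S := hx
      have hb := hbound (x - x0) (hS x hx' x0 hx0).2 (kf x) (hkf x hx')
      have hkM : (kf x).natAbs ≤ M := by
        rw [hM]; exact (Nat.le_div_iff_mul_le hνpos).2 hb
      have hc := abs_le_nrm (x - x0) j
      have hc2 : (nrm (x - x0) : ℤ) ≤ R := by exact_mod_cast (hS x hx' x0 hx0).2
      have hc3 : |x j - x0 j| ≤ R := by simpa using hc.trans hc2
      rw [abs_le] at hc3
      have hlpos : (0 : ℤ) < l := by exact_mod_cast hl1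
      simp only [coe_product, coe_Icc, Set.mem_prod, Set.mem_Icc]
      refine ⟨⟨by omega, by omega⟩, Int.ediv_nonneg (by linarith) hlpos.le, ?_⟩
      rw [hM2]
      push_cast
      exact Int.ediv_le_ediv hlpos (by linarith)
    · intro x hx y hy hxy
      have hx' : x ∈ S := hx
      have hy' : y ∈ S := hy
      simp only [Prod.mk.injEq] at hxy
      obtain ⟨e1, e2⟩ := hxy
      by_contra hne
      have hd : x - y ≠ 0 := sub_ne_zero.2 hne
      have hcr : cr w0 (x - y) = 0 := by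
        have : x - y = (x - x0) - (y - x0) := by abel
        rw [this, cr_sub_right, hkf x hx', hkf y hy', e1, sub_self]
      have hge := hmin (x - y) (hS x hx' y hy').1 hd
      obtain ⟨i, hi⟩ := exists_nrm (x - y)
      have e3 := cr_zero_mul hcr i j
      have hlpos : (0 : ℤ) < l := by exact_mod_cast hl1
      have e4 : |(x - y) i| * l ≤ |(x - y) j| * l := by
        have : |(x - y) i| * |w0 j| = |(x - y) j| * |w0 i| := by
          rw [← abs_mul, ← abs_mul, e3]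
        rw [hj] at this
        rw [this]
        have h5 := abs_le_nrm w0 i
        rw [hn0] at h5
        exact mul_le_mul_of_nonneg_left h5 (abs_nonneg _)
      have e5 : (l : ℤ) ≤ |x j - y j| := by
        have h6 : |(x - y) i| ≤ |(x - y) j| := le_of_mul_le_mul_right e4 hlpos
        have h7 : (l : ℤ) ≤ nrm (x - y) := by exact_mod_cast hge
        rw [hi] at h6
        simpa using h7.trans h6
      have f1 := Int.mul_ediv_add_emod (x j - x0 j + R) l
      have f2 := Int.mul_ediv_add_emod (y j - x0 j + R) l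
      have f3 := Int.emod_nonneg (x j - x0 j + R) hlpos.ne'
      have f4 := Int.emod_nonneg (y j - x0 j + R) hlpos.ne'
      have f5 := Int.emod_lt_of_pos (x j - x0 j + R) hlpos
      have f6 := Int.emod_lt_of_pos (y j - x0 j + R) hlpos
      rw [e2] at f1
      rcases le_abs'.1 e5 with h | h <;> linarith
  rw [card_product, Int.card_Icc, Int.card_Icc] at hcard
  have hc1 : ((M : ℤ) + 1 - -(M : ℤ)).toNat = 2 * M + 1 := by omega
  have hc2 : ((M2 : ℤ) + 1 - 0).toNat = M2 + 1 := by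
    rw [sub_zero]; exact Int.toNat_natCast (M2 + 1)
  rw [hc1, hc2] at hcard
  have hMν : M * nrm ν ≤ 2 * l * R := Nat.div_mul_le_self _ _
  have hM2l : M2 * l ≤ 2 * R := Nat.div_mul_le_self _ _
  calc S.card * nrm ν ≤ ((2 * M + 1) * (M2 + 1)) * nrm ν := Nat.mul_le_mul_right _ hcard
    _ ≤ ((3 * M) * (M2 + 1)) * nrm ν := by
        apply Nat.mul_le_mul_right
        apply Nat.mul_le_mul_right
        omega
    _ = 3 * (M * nrm ν) * (M2 + 1) := by ring
    _ ≤ 3 * (2 * l * R) * (M2 + 1) := by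
        apply Nat.mul_le_mul_right
        exact Nat.mul_le_mul_left _ hMν
    _ = 6 * R * (M2 * l + l) := by ring
    _ ≤ 6 * R * (2 * R + R) := Nat.mul_le_mul_left _ (by omega)
    _ = 18 * R ^ 2 := by ring

/-- primitive integer vectors -/
def Prim (v : Z3) : Prop := ∃ b : Z3, dt b v = 1

lemma Prim.ne_zero {v : Z3} (h : Prim v) : v ≠ 0 := by
  rintro rfl
  obtain ⟨b, hb⟩ := h
  simp [dt] at hb

lemma exists_prim {u : Z3} (hu : u ≠ 0) : ∃ (g : ℤ) (v : Z3), g ≠ 0 ∧ Prim v ∧ u = g • v := by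
  set g1 : ℤ := (Int.gcd (u 0) (u 1) : ℤ) with hg1
  set g : ℤ := (Int.gcd g1 (u 2) : ℤ) with hg
  have d1 : g ∣ g1 := Int.gcd_dvd_left _ _
  have d2 : g ∣ u 2 := Int.gcd_dvd_right _ _
  have d0 : g ∣ u 0 := d1.trans (Int.gcd_dvd_left _ _)
  have d1' : g ∣ u 1 := d1.trans (Int.gcd_dvd_right _ _)
  have hg0 : g ≠ 0 := by
    intro h
    rw [h] at d0 d1' d2
    apply hu
    exact vec_ext (by simpa using d0) (by simpa using d1') (by simpa using d2)
  obtain ⟨a, ha⟩ := d0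
  obtain ⟨b, hb⟩ := d1'
  obtain ⟨c, hc⟩ := d2
  have e1 := Int.gcd_eq_gcd_ab (u 0) (u 1)
  have e2 := Int.gcd_eq_gcd_ab g1 (u 2)
  rw [← hg1] at e1
  rw [← hg] at e2
  refine ⟨g, ![a, b, c], hg0, ?_, ?_⟩
  · refine ⟨![Int.gcdA g1 (u 2) * Int.gcdA (u 0) (u 1), Int.gcdA g1 (u 2) * Int.gcdB (u 0) (u 1),
      Int.gcdB g1 (u 2)], ?_⟩
    apply mul_left_cancel₀ hg0
    simp only [dt, Matrix.cons_val_zero, Matrix.cons_val_one, Matrix.cons_val]
    set A := Int.gcdA g1 (u 2)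
    set B := Int.gcdB g1 (u 2)
    set C := Int.gcdA (u 0) (u 1)
    set D := Int.gcdB (u 0) (u 1)
    linear_combination -e2 - A * e1 - A * C * ha - A * D * hb - B * hc
  · apply vec_ext <;> simp [ha, hb, hc]

lemma nrm_le_of_smul {g : ℤ} {v u : Z3} (hg : g ≠ 0) (h : u = g • v) : nrm v ≤ nrm u := by
  rw [h, nrm_smul]
  have : 1 ≤ g.natAbs := Int.natAbs_pos.2 hg
  calc nrm v = 1 * nrm v := (one_mul _).symm
    _ ≤ _ := Nat.mul_le_mul_right _ this

lemma Prim.cr_eq {v w w' : Z3} (hv : Prim v) (h : dt v w = 0) (h' : dt v w' = 0) :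
    ∃ k : ℤ, cr w w' = k • v ∧ ∀ m : ℤ, (∀ i, m ∣ cr w w' i) → m ∣ k := by
  obtain ⟨b, hb⟩ := hv
  refine ⟨dt b (cr w w'), ?_, ?_⟩
  · unfold dt at *
    apply vec_ext
    · simp only [cr_zero', cr_one', cr_two', Pi.smul_apply, smul_eq_mul]
      linear_combination (-(w 1 * w' 2 - w 2 * w' 1)) * hb
        + (b 1 * w' 2 - b 2 * w' 1) * h - (b 1 * w 2 - b 2 * w 1) * h'
    · simp only [cr_zero', cr_one', cr_two', Pi.smul_apply, smul_eq_mul]
      linear_combination (-(w 2 * w' 0 - w 0 * w' 2)) * hb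
        + (b 2 * w' 0 - b 0 * w' 2) * h - (b 2 * w 0 - b 0 * w 2) * h'
    · simp only [cr_zero', cr_one', cr_two', Pi.smul_apply, smul_eq_mul]
      linear_combination (-(w 0 * w' 1 - w 1 * w' 0)) * hb
        + (b 0 * w' 1 - b 1 * w' 0) * h - (b 0 * w 1 - b 1 * w 0) * h'
  · intro m hm
    unfold dt
    exact dvd_add (dvd_add (Dvd.dvd.mul_left (hm 0) _) (Dvd.dvd.mul_left (hm 1) _))
      (Dvd.dvd.mul_left (hm 2) _)

end Vale.Agent.P036
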