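import Vale.Agent.P036.Orbit

namespace Vale.Agent.P036

open Finset Matrix

/-- the box of candidate points -/
noncomputable def box (H : ℕ) : Finset Z3 :=
  (cube H).filter (fun x => x 0 < H ∧ x 1 < H ∧ (H : ℤ) ≤ x 2)

lemma mem_box {H : ℕ} {x : Z3} : x ∈ box H ↔
    (0 ≤ x 0 ∧ x 0 < H) ∧ (0 ≤ x 1 ∧ x 1 < H) ∧ ((H : ℤ) ≤ x 2 ∧ x 2 < 2 * H) := by
  unfold box
  rw [mem_filter, mem_cube]
  constructor
  · rintro ⟨h, a, b, c⟩
    exact ⟨⟨(h 0).1, a⟩, ⟨(h 1).1, b⟩, c, (h 2).2⟩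
  · rintro ⟨⟨a, b⟩, ⟨c, d⟩, e, f⟩
    refine ⟨fun i => ?_, b, d, e⟩
    fin_cases i
    · exact ⟨a, by show x 0 < 2 * H; linarith⟩
    · exact ⟨c, by show x 1 < 2 * H; linarith⟩
    · exact ⟨by show 0 ≤ x 2; linarith, f⟩

lemma box_sub_cube {H : ℕ} {x : Z3} (hx : x ∈ box H) : x ∈ cube H := (mem_filter.1 hx).1

lemma red_ne {H p : ℕ} (hpH : 2 * H ≤ p) {x y : Z3} (hx : x ∈ cube H) (hy : y ∈ cube H)
    (hxy : x ≠ y) : red p x ≠ red p y := by
  intro he
  apply hxy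
  funext k
  have h1 : ((x k - y k : ℤ) : ZMod p) = 0 := by
    push_cast
    exact sub_eq_zero.2 (congrFun he k)
  have h2 := (ZMod.intCast_zmod_eq_zero_iff_dvd _ p).1 h1
  have h3 := mem_cube.1 hx k
  have h4 := mem_cube.1 hy k
  have h5 : ((2 * H : ℕ) : ℤ) ≤ p := by exact_mod_cast hpH
  push_cast at h5
  have := Int.eq_zero_of_abs_lt_dvd h2 (abs_lt.2 ⟨by linarith, by linarith⟩)
  linarith

lemma nonaffine {H p : ℕ} [Fact p.Prime] (hpH : 2 * H ≤ p) {D : ZMod p} (hD : ¬ IsSquare D)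
    {w : ZMod p × ZMod p × ZMod p × ZMod p} (hw : w.1 ≠ 0) {x y z : Z3} (hx : x ∈ cube H)
    (hy : y ∈ cube H) (hz : z ∈ cube H) (hxy : x ≠ y) (hxz : x ≠ z) (hyz : y ≠ z)
    (ox : onP D w (red p x)) (oy : onP D w (red p y)) (oz : onP D w (red p z))
    (v : Z3) (hv : Prim v) (hr : Rel v (x, y, z)) : v 0 + v 1 + v 2 ≠ 0 := by
  intro hs
  refine parab_no_three hD hw ox oy oz (red_ne hpH hx hy hxy) (red_ne hpH hx hz hxz)
    (red_ne hpH hy hz hyz) (a := (v 0 : ZMod p)) (b := (v 1 : ZMod p)) (c := (v 2 : ZMod p))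
    ?_ ?_ ?_
  · have := congrArg (Int.cast : ℤ → ZMod p) hs
    push_cast at this
    exact this
  · intro k
    have := congrArg (Int.cast : ℤ → ZMod p) (hr k)
    push_cast at this
    exact this
  · rintro ⟨a, b, c⟩
    obtain ⟨β, hβ⟩ := hv
    have := congrArg (Int.cast : ℤ → ZMod p) hβ
    unfold dt at this
    push_cast at this
    rw [a, b, c] at this
    simp at this

lemma card_parallel {H : ℕ} {x : Z3} (hx : x ∈ box H) (S : Finset Z3)
    (hS : ∀ y ∈ S, y ∈ box H ∧ cr x y = 0) : S.card ≤ H := by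
  have hc : (Ico (H : ℤ) (2 * H)).card = H := by
    rw [Int.card_Ico]; omega
  rw [← hc]
  rw [mem_box] at hx
  have hx2 : x 2 ≠ 0 := by
    have : 0 < x 2 := by linarith [hx.1.1, hx.1.2, hx.2.2.1]
    exact this.ne'
  apply card_le_card_of_injOn (fun y : Z3 => y 2)
  · intro y hy
    have := mem_box.1 (hS y hy).1
    rw [mem_coe, mem_Ico]
    exact this.2.2
  · intro y hy y' hy' he
    have a := (cr_eq_zero_iff _ _).1 (hS y hy).2
    have b := (cr_eq_zero_iff _ _).1 (hS y' hy').2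
    simp only at he
    refine vec_ext (mul_left_cancel₀ hx2 ?_) (mul_left_cancel₀ hx2 ?_) he
    · linear_combination a.2.1 - b.2.1 + x 0 * he
    · linear_combination b.1 - a.1 + x 1 * he

lemma abs_det3_swap (x y z : Z3) : |det3 x z y| = |det3 x y z| := by
  rw [← abs_neg]
  congr 1
  rw [det3_eq, det3_eq]; ring

lemma abs_det3_cyc (x y z : Z3) : |det3 y z x| = |det3 x y z| := by
  congr 1
  rw [det3_eq, det3_eq]; ring

section sets

variable {h : ℕ} [Fact h.Prime] {ι : Type} [Fintype ι] (u Y Z : ι → ℤ) (μ H T : ℕ)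

open Classical in
/-- points of the box whose residue lies in the image of the residue set -/
noncomputable def SS (g : Matrix (Fin 3) (Fin 3) (ZMod h)) : Finset Z3 :=
  (box H).filter (fun x => ∃ i : ι, ∃ m < μ, g *ᵥ red h (av u Y Z i m) = red h x)

open Classical in
/-- the triples that are counted -/
noncomputable def TT : Finset (Z3 × Z3 × Z3) :=
  (cube3 H).filter (fun q => Nd H T q ∧ q.1 ≠ q.2.1 ∧ q.1 ≠ q.2.2 ∧ q.2.1 ≠ q.2.2)

/-- index tuples -/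
def Tau (ι : Type) [Fintype ι] (μ : ℕ) : Finset (ι × ι × ℕ × ℕ × ℕ) :=
  univ ×ˢ univ ×ˢ range μ ×ˢ range μ ×ˢ range μ

/-- matching of an index tuple -/
def MtT (g : Matrix (Fin 3) (Fin 3) (ZMod h)) (τ : ι × ι × ℕ × ℕ × ℕ) (q : Z3 × Z3 × Z3) : Prop :=
  Mt g (red h (av u Y Z τ.1 τ.2.2.1)) (red h (av u Y Z τ.1 τ.2.2.2.1))
    (red h (av u Y Z τ.2.1 τ.2.2.2.2)) q

open Classical in
/-- counted triples matched by g -/
noncomputable def TG (g : Matrix (Fin 3) (Fin 3) (ZMod h)) : Finset (Z3 × Z3 × Z3) :=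
  (TT H T).filter (fun q => ∃ τ ∈ Tau ι μ, MtT u Y Z g τ q)

variable {p : ℕ} [Fact p.Prime] (D : ZMod p)

open Classical in
/-- selected points -/
noncomputable def WW (g : Matrix (Fin 3) (Fin 3) (ZMod h)) (w : ZMod p × ZMod p × ZMod p × ZMod p) :
    Finset Z3 := (SS u Y Z μ H g).filter (fun x => onP D w (red p x))

open Classical in
/-- bad pairs -/
noncomputable def B2 (g : Matrix (Fin 3) (Fin 3) (ZMod h)) (w : ZMod p × ZMod p × ZMod p × ZMod p) :
    Finset (Z3 × Z3) :=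
  ((SS u Y Z μ H g ×ˢ box H).filter (fun q => q.1 ≠ q.2 ∧ cr q.1 q.2 = 0)).filter
    (fun q => onP D w (red p q.1) ∧ onP D w (red p q.2))

open Classical in
/-- bad triples -/
noncomputable def B3 (g : Matrix (Fin 3) (Fin 3) (ZMod h)) (w : ZMod p × ZMod p × ZMod p × ZMod p) :
    Finset (Z3 × Z3 × Z3) :=
  (TG u Y Z μ H T g).filter
    (fun q => onP D w (red p q.1) ∧ onP D w (red p q.2.1) ∧ onP D w (red p q.2.2))

/-- parameters of the paraboloid -/
def Om (p : ℕ) [Fact p.Prime] : Finset (ZMod p × ZMod p × ZMod p × ZMod p) :=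
  (univ.erase (0 : ZMod p)) ×ˢ univ

lemma mem_Om {w : ZMod p × ZMod p × ZMod p × ZMod p} : w ∈ Om p ↔ w.1 ≠ 0 := by
  unfold Om
  simp

lemma card_Om : (Om p).card = (p - 1) * p ^ 3 := by
  unfold Om
  rw [card_product, card_erase_of_mem (mem_univ _), card_univ, card_univ]
  simp only [Fintype.card_prod, ZMod.card]
  ring

omit [Fact h.Prime] in
lemma sum_WW (g : Matrix (Fin 3) (Fin 3) (ZMod h)) :
    (SS u Y Z μ H g).card * ((p - 1) * p ^ 2) ≤ ∑ w ∈ Om p, (WW u Y Z μ H D g w).card := by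
  classical
  unfold WW
  rw [dc (Om p) (SS u Y Z μ H g) (fun w x => onP D w (red p x))]
  have := card_nsmul_le_sum (SS u Y Z μ H g)
    (fun x => ((Om p).filter (fun w => onP D w (red p x))).card) ((p - 1) * p ^ 2) (by
      intro x _
      have := card_onP_one D (red p x) ((Om p).filter (fun w => onP D w (red p x)))
        (fun w hw ho => mem_filter.2 ⟨mem_Om.2 hw, ho⟩)
      rwa [ZMod.card] at this)
  rwa [smul_eq_mul] at this

omit [Fact h.Prime] in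
lemma sum_B2 (hpH : 2 * H ≤ p) (g : Matrix (Fin 3) (Fin 3) (ZMod h)) :
    ∑ w ∈ Om p, (B2 u Y Z μ H D g w).card ≤ (SS u Y Z μ H g).card * H * p ^ 2 := by
  classical
  unfold B2
  rw [dc (Om p) _ (fun w (q : Z3 × Z3) => onP D w (red p q.1) ∧ onP D w (red p q.2))]
  set P2 := (SS u Y Z μ H g ×ˢ box H).filter (fun q => q.1 ≠ q.2 ∧ cr q.1 q.2 = 0) with hP2
  have h1 := sum_le_card_nsmul P2
    (fun q => ((Om p).filter (fun w => onP D w (red p q.1) ∧ onP D w (red p q.2))).card)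
    (p ^ 2) (by
      intro q hq
      rw [hP2, mem_filter, mem_product] at hq
      have := card_onP_two (red_ne hpH (box_sub_cube (mem_filter.1 hq.1.1).1)
        (box_sub_cube hq.1.2) hq.2.1)
        ((Om p).filter (fun w => onP D w (red p q.1) ∧ onP D w (red p q.2)))
        (fun w hw => (mem_filter.1 hw).2)
      rwa [ZMod.card] at this)
  rw [smul_eq_mul] at h1
  refine h1.trans (Nat.mul_le_mul_right _ ?_)
  have h2 := card_le_mul_card_image_of_maps_to (s := P2) (t := SS u Y Z μ H g)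
    (f := fun q => q.1) (fun q hq => (mem_product.1 (mem_filter.1 hq).1).1) H (by
      intro x hx
      have hx' : x ∈ box H := (mem_filter.1 hx).1
      have e : (P2.filter (fun q => q.1 = x)).card =
          ((P2.filter (fun q => q.1 = x)).image (fun q => q.2)).card := by
        symm
        apply card_image_of_injOn
        intro q hq q' hq' he
        exact Prod.ext ((mem_filter.1 hq).2.trans (mem_filter.1 hq').2.symm) he
      rw [e]
      apply card_parallel hx'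
      intro y hy
      obtain ⟨q, hq, rfl⟩ := mem_image.1 hy
      rw [mem_filter, hP2, mem_filter, mem_product] at hq
      exact ⟨hq.1.1.2, hq.2 ▸ hq.1.2.2⟩)
  rwa [mul_comm] at h2

omit [Fact h.Prime] in
lemma sum_B3 (hpH : 2 * H ≤ p) (hD : ¬ IsSquare D) (g : Matrix (Fin 3) (Fin 3) (ZMod h)) :
    ∑ w ∈ Om p, (B3 u Y Z μ H T D g w).card ≤ (TG u Y Z μ H T g).card * p := by
  classical
  unfold B3
  rw [dc (Om p) _ (fun w (q : Z3 × Z3 × Z3) =>
    onP D w (red p q.1) ∧ onP D w (red p q.2.1) ∧ onP D w (red p q.2.2))]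
  have h1 := sum_le_card_nsmul (TG u Y Z μ H T g)
    (fun q => ((Om p).filter
      (fun w => onP D w (red p q.1) ∧ onP D w (red p q.2.1) ∧ onP D w (red p q.2.2))).card)
    p (by
      intro q hq
      obtain ⟨hc, _, n1, n2, n3⟩ := mem_filter.1 (mem_filter.1 hq).1
      rw [mem_cube3] at hc
      have := card_onP_three hD (red_ne hpH hc.1 hc.2.1 n1) (red_ne hpH hc.1 hc.2.2 n2)
        (red_ne hpH hc.2.1 hc.2.2 n3) ((Om p).filter
          (fun w => onP D w (red p q.1) ∧ onP D w (red p q.2.1) ∧ onP D w (red p q.2.2)))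
        (fun w hw => (mem_filter.1 hw).2)
      rwa [ZMod.card] at this)
  rwa [smul_eq_mul] at h1

lemma sum_TG (hT : 2 * T < h) (hμ : μ ≤ h)
    (hA2 : ∀ i j, i ≠ j → (Y i : ZMod h) * Z j - Y j * Z i ≠ 0)
    (hA3 : ∀ i, ¬ ((Y i : ZMod h) = 0 ∧ (Z i : ZMod h) = 0))
    (hh : h ≤ Fintype.card ι * μ ^ 2)
    (G : Finset (Matrix (Fin 3) (Fin 3) (ZMod h))) (hG : ∀ g ∈ G, g.det = 1) :
    ∑ g ∈ G, ((TG u Y Z μ H T g).card : ℝ) ≤
      (CC * (H : ℝ) ^ 6 * ell H) * (2 * (Fintype.card ι : ℝ) ^ 2 * (μ : ℝ) ^ 3) := by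
  classical
  have h1 : ∀ g ∈ G, ((TG u Y Z μ H T g).card : ℝ) ≤
      ∑ τ ∈ Tau ι μ, (((TT H T).filter (fun q => MtT u Y Z g τ q)).card : ℝ) := by
    intro g _
    have : TG u Y Z μ H T g ⊆
        (Tau ι μ).biUnion (fun τ => (TT H T).filter (fun q => MtT u Y Z g τ q)) := by
      intro q hq
      obtain ⟨a, τ, hτ, hm⟩ := mem_filter.1 hq
      exact mem_biUnion.2 ⟨τ, hτ, mem_filter.2 ⟨a, hm⟩⟩
    have h2 := (card_le_card this).trans card_biUnion_le
    exact_mod_cast h2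
  refine (sum_le_sum h1).trans ?_
  rw [sum_comm]
  have h2 : ∀ τ ∈ Tau ι μ, ∑ g ∈ G, (((TT H T).filter (fun q => MtT u Y Z g τ q)).card : ℝ) ≤
      (CC * (H : ℝ) ^ 6 * ell H) *
        (1 + if τ.1 = τ.2.1 ∧ τ.2.2.1 = τ.2.2.2.1 ∧ τ.2.2.1 = τ.2.2.2.2 then (h : ℝ) else 0) := by
    intro τ hτ
    unfold Tau at hτ
    simp only [mem_product, mem_range] at hτ
    have e := dc G (TT H T) (fun g q => MtT u Y Z g τ q)
    have e' : ∑ g ∈ G, (((TT H T).filter (fun q => MtT u Y Z g τ q)).card : ℝ) =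
        ∑ q ∈ TT H T, ((G.filter (fun g => MtT u Y Z g τ q)).card : ℝ) := by
      exact_mod_cast e
    rw [e']
    have := Mtau hT (TT H T) (fun q hq => (mem_filter.1 hq).2.1) G hG u Y Z hA2 hA3 τ.1 τ.2.1
      τ.2.2.1 τ.2.2.2.1 τ.2.2.2.2 (by omega) (by omega) (by omega)
    refine le_trans (le_of_eq (sum_congr rfl (fun q _ => ?_))) this
    exact congrArg (fun s : Finset (Matrix (Fin 3) (Fin 3) (ZMod h)) => (s.card : ℝ))
      (Finset.ext (fun g => by rw [mem_filter, mem_filter]; rfl))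
  refine (sum_le_sum h2).trans ?_
  rw [← mul_sum]
  apply mul_le_mul_of_nonneg_left _ (by positivity)
  rw [sum_add_distrib, ← sum_filter, sum_const, sum_const, nsmul_eq_mul, nsmul_eq_mul, mul_one]
  have c1 : (Tau ι μ).card = Fintype.card ι ^ 2 * μ ^ 3 := by
    unfold Tau
    simp only [card_product, card_univ, card_range]
    ring
  have c2 : ((Tau ι μ).filter
      (fun τ => τ.1 = τ.2.1 ∧ τ.2.2.1 = τ.2.2.2.1 ∧ τ.2.2.1 = τ.2.2.2.2)).card ≤
      Fintype.card ι * μ := by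
    have : ((univ : Finset ι) ×ˢ range μ).card = Fintype.card ι * μ := by
      rw [card_product, card_univ, card_range]
    rw [← this]
    apply card_le_card_of_injOn (fun τ : ι × ι × ℕ × ℕ × ℕ => (τ.1, τ.2.2.1))
    · intro τ hτ
      have h3 := (mem_filter.1 hτ).1
      unfold Tau at h3
      simp only [mem_product, mem_range] at h3
      rw [mem_coe, mem_product, mem_range]
      exact ⟨mem_univ _, h3.2.2.1⟩
    · rintro ⟨a, b, c, d, e⟩ hτ ⟨a', b', c', d', e'⟩ hτ' he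
      have h3 := (mem_filter.1 hτ).2
      have h4 := (mem_filter.1 hτ').2
      simp only [Prod.mk.injEq] at he h3 h4 ⊢
      obtain ⟨rfl, rfl⟩ := he
      obtain ⟨rfl, rfl, rfl⟩ := h3
      obtain ⟨rfl, rfl, rfl⟩ := h4
      exact ⟨rfl, rfl, rfl, rfl, rfl⟩
  have c3 := Nat.mul_le_mul c2 hh
  have c4 : (Tau ι μ).card + ((Tau ι μ).filter
      (fun τ => τ.1 = τ.2.1 ∧ τ.2.2.1 = τ.2.2.2.1 ∧ τ.2.2.1 = τ.2.2.2.2)).card * h ≤
      2 * Fintype.card ι ^ 2 * μ ^ 3 := by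
    rw [c1]
    calc _ ≤ Fintype.card ι ^ 2 * μ ^ 3 + Fintype.card ι * μ * (Fintype.card ι * μ ^ 2) :=
          Nat.add_le_add_left c3 _
      _ = _ := by ring
  exact_mod_cast c4

lemma card_SS (κ : ℕ) (hH : H = κ * h) (hμ : μ ≤ h)
    (hA2 : ∀ i j, i ≠ j → (Y i : ZMod h) * Z j - Y j * Z i ≠ 0)
    (g : Matrix (Fin 3) (Fin 3) (ZMod h)) (hg : g.det = 1) :
    Fintype.card ι * μ * κ ^ 3 ≤ (SS u Y Z μ H g).card := by
  classical
  have hh : 0 < h := (Fact.out : h.Prime).pos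
  have hc : (((univ : Finset ι) ×ˢ range μ) ×ˢ
      Fintype.piFinset (fun _ : Fin 3 => range κ)).card = Fintype.card ι * μ * κ ^ 3 := by
    rw [card_product, card_product, card_univ, card_range, Fintype.card_piFinset]
    simp
  rw [← hc]
  set f : (ι × ℕ) × (Fin 3 → ℕ) → Z3 := fun t k =>
    (((g *ᵥ red h (av u Y Z t.1.1 t.1.2)) k).val : ℤ) + h * t.2 k + (if k = 2 then (H : ℤ) else 0)
    with hf
  have hred : ∀ t, red h (f t) = g *ᵥ red h (av u Y Z t.1.1 t.1.2) := by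
    intro t
    funext k
    simp only [red, hf]
    push_cast
    rw [ZMod.natCast_self, zero_mul, add_zero, ZMod.natCast_zmod_val]
    split_ifs
    · rw [hH]; push_cast; rw [ZMod.natCast_self, mul_zero, add_zero]
    · rw [add_zero]
  apply card_le_card_of_injOn f
  · intro t ht
    rw [mem_coe, mem_product, mem_product, mem_range, Fintype.mem_piFinset] at ht
    rw [mem_coe]
    refine mem_filter.2 ⟨?_, t.1.1, t.1.2, ht.1.2, (hred t).symm⟩
    have hb : ∀ k, (0 : ℤ) ≤ (((g *ᵥ red h (av u Y Z t.1.1 t.1.2)) k).val : ℤ) + h * t.2 k ∧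
        (((g *ᵥ red h (av u Y Z t.1.1 t.1.2)) k).val : ℤ) + h * t.2 k < H := by
      intro k
      refine ⟨by positivity, ?_⟩
      have a1 := ZMod.val_lt ((g *ᵥ red h (av u Y Z t.1.1 t.1.2)) k)
      have a2 := mem_range.1 (ht.2 k)
      have a3 : ((g *ᵥ red h (av u Y Z t.1.1 t.1.2)) k).val + h * t.2 k < H := by
        rw [hH]; nlinarith
      exact_mod_cast a3
    rw [mem_box]
    have b0 := hb 0
    have b1 := hb 1
    have b2 := hb 2
    simp only [hf]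
    simp only [Fin.reduceEq, if_false, if_true, add_zero]
    exact ⟨b0, b1, by linarith [b2.1], by linarith [b2.2]⟩
  · rintro ⟨⟨i, m⟩, s⟩ ht ⟨⟨i', m'⟩, s'⟩ ht' he
    rw [mem_coe, mem_product, mem_product, mem_range] at ht ht'
    have e1 := hred ((i, m), s)
    rw [he, hred] at e1
    have e2 := mulVec_inj hg e1
    have a0 := congrFun e2 0
    have a1 := congrFun e2 1
    have a2 := congrFun e2 2
    simp [red, av] at a0 a1 a2
    have hi : i = i' := by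
      by_contra hne
      apply hA2 i i' hne
      rw [a1, a2]; ring
    subst hi
    have hm : m = m' := natCast_inj_of_lt (by have := ht.1.2; simp only at this; omega)
      (by have := ht'.1.2; simp only at this; omega) (add_left_cancel a0).symm
    subst hm
    have hs : s = s' := by
      funext k
      have := congrFun he k
      simp only [hf] at this
      have h2 : (h : ℤ) * s k = h * s' k := by linarith
      have h3 := mul_left_cancel₀ (by exact_mod_cast hh.ne' : (h : ℤ) ≠ 0) h2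
      exact_mod_cast h3
    rw [hs]

lemma clean (hpH : 2 * H ≤ p) (hD : ¬ IsSquare D)
    (hA1 : ∀ i j k, i ≠ j → i ≠ k → j ≠ k → ∀ m m' m'' : ℕ, m < μ → m' < μ → m'' < μ →
      ∀ t : ℤ, |t| ≤ T → ¬ (h : ℤ) ∣ det3 (av u Y Z i m) (av u Y Z j m') (av u Y Z k m'') - t)
    (g : Matrix (Fin 3) (Fin 3) (ZMod h)) (hg : g.det = 1)
    (w : ZMod p × ZMod p × ZMod p × ZMod p) (hw : w.1 ≠ 0) :
    ∃ W : Finset Z3, W ⊆ box H ∧
      (WW u Y Z μ H D g w).card ≤ W.card + (B2 u Y Z μ H D g w).card + (B3 u Y Z μ H T D g w).card ∧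
      (∀ x ∈ W, ∀ y ∈ W, x ≠ y → cr x y ≠ 0) ∧
      ∀ x ∈ W, ∀ y ∈ W, ∀ z ∈ W, x ≠ y → x ≠ z → y ≠ z → (T : ℤ) < |det3 x y z| := by
  classical
  set R := (B2 u Y Z μ H D g w).image (fun q => q.1) ∪ (B3 u Y Z μ H T D g w).image (fun q => q.1)
    with hR
  have hW : ∀ x ∈ WW u Y Z μ H D g w \ R, x ∈ SS u Y Z μ H g ∧ x ∈ box H ∧ onP D w (red p x) ∧
      x ∉ R := by
    intro x hx
    rw [mem_sdiff] at hx
    have a := mem_filter.1 hx.1
    exact ⟨a.1, (mem_filter.1 a.1).1, a.2, hx.2⟩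
  have hpar : ∀ x ∈ WW u Y Z μ H D g w \ R, ∀ y ∈ WW u Y Z μ H D g w \ R, x ≠ y → cr x y ≠ 0 := by
    intro x hx y hy hxy hc
    obtain ⟨a1, _, a3, a4⟩ := hW x hx
    obtain ⟨_, b2, b3, _⟩ := hW y hy
    apply a4
    rw [hR, mem_union]
    left
    exact mem_image.2 ⟨(x, y), mem_filter.2 ⟨mem_filter.2 ⟨mem_product.2 ⟨a1, b2⟩, hxy, hc⟩,
      a3, b3⟩, rfl⟩
  have hbad : ∀ x ∈ WW u Y Z μ H D g w \ R, ∀ y ∈ WW u Y Z μ H D g w \ R,
      ∀ z ∈ WW u Y Z μ H D g w \ R, x ≠ y → x ≠ z → y ≠ z → |det3 x y z| ≤ T →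
      ∀ (i k : ι) (m m' m'' : ℕ), m < μ → m' < μ → m'' < μ →
      g *ᵥ red h (av u Y Z i m) = red h x → g *ᵥ red h (av u Y Z i m') = red h y →
      g *ᵥ red h (av u Y Z k m'') = red h z → False := by
    intro x hx y hy z hz hxy hxz hyz hd i k m m' m'' l1 l2 l3 e1 e2 e3
    obtain ⟨_, a2, a3, a4⟩ := hW x hx
    obtain ⟨_, b2, b3, _⟩ := hW y hy
    obtain ⟨_, c2, c3, _⟩ := hW z hz
    apply a4
    rw [hR, mem_union]
    right
    have hc3 : (x, y, z) ∈ cube3 H :=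
      mem_cube3.2 ⟨box_sub_cube a2, box_sub_cube b2, box_sub_cube c2⟩
    refine mem_image.2 ⟨(x, y, z), mem_filter.2 ⟨mem_filter.2 ⟨mem_filter.2 ⟨hc3,
      ⟨hc3, hpar x hx y hy hxy, hd, ?_⟩, hxy, hxz, hyz⟩, (i, k, m, m', m''), ?_, e1, e2, e3⟩,
      a3, b3, c3⟩, rfl⟩
    · exact nonaffine hpH hD hw (box_sub_cube a2) (box_sub_cube b2) (box_sub_cube c2) hxy hxz hyz
        a3 b3 c3
    · unfold Tau
      simp only [mem_product, mem_range, mem_univ, true_and]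
      exact ⟨l1, l2, l3⟩
  refine ⟨WW u Y Z μ H D g w \ R, fun x hx => (hW x hx).2.1, ?_, hpar, ?_⟩
  · have h1 := le_card_sdiff R (WW u Y Z μ H D g w)
    have h2 : R.card ≤ (B2 u Y Z μ H D g w).card + (B3 u Y Z μ H T D g w).card :=
      (card_union_le _ _).trans (Nat.add_le_add card_image_le card_image_le)
    omega
  · intro x hx y hy z hz hxy hxz hyz
    by_contra hc
    push Not at hc
    obtain ⟨_, i, m, l1, e1⟩ := mem_filter.1 (hW x hx).1
    obtain ⟨_, j, m', l2, e2⟩ := mem_filter.1 (hW y hy).1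
    obtain ⟨_, k, m'', l3, e3⟩ := mem_filter.1 (hW z hz).1
    by_cases hij : i = j
    · subst hij
      exact hbad x hx y hy z hz hxy hxz hyz hc i k m m' m'' l1 l2 l3 e1 e2 e3
    by_cases hik : i = k
    · subst hik
      exact hbad x hx z hz y hy hxz hxy hyz.symm (by rwa [abs_det3_swap]) i j m m'' m' l1 l3 l2
        e1 e3 e2
    by_cases hjk : j = k
    · subst hjk
      exact hbad y hy z hz x hx hyz hxy.symm hxz.symm (by rwa [abs_det3_cyc]) j i m' m'' m l2 l3 l1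
        e2 e3 e1
    apply hA1 i j k hij hik hjk m m' m'' l1 l2 l3 _ hc
    apply (ZMod.intCast_zmod_eq_zero_iff_dvd _ h).1
    have hm : Mt g (red h (av u Y Z i m)) (red h (av u Y Z j m')) (red h (av u Y Z k m''))
      (x, y, z) := ⟨e1, e2, e3⟩
    have := hm.det hg
    push_cast
    rw [red_det3, ← this, sub_self]

end sets

lemma numeric {p H h G C l L μ κ S : ℝ} (hP : 4 * H + 1 ≤ p) (hHr : 2 ≤ H)
    (hG : h ^ 8 / 4 ≤ G) (hsm : 2 * C * l * H * L * μ ^ 2 ≤ h ^ 5) (hHκ : H = κ * h)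
    (hS : S ≤ (C * H ^ 6 * l) * (2 * L ^ 2 * μ ^ 3)) (hL : 0 ≤ L) (hμ : 0 ≤ μ) (hκ : 0 ≤ κ)
    (hG0 : 0 ≤ G) :
    G * ((p - 1) * p ^ 3) * (L * μ * κ ^ 3 / (2 * p)) ≤
      G * (L * μ * κ ^ 3 * (p ^ 2 * (p - 1 - H))) - S * p := by
  have hp0 : 0 < p := by linarith
  have hH0 : 0 ≤ H := by linarith
  set n1 := L * μ * κ ^ 3 with hn1
  have hn10 : 0 ≤ n1 := by positivity
  have key : (C * H ^ 6 * l) * (2 * L ^ 2 * μ ^ 3) * p ≤ G * (n1 * (p ^ 2 * ((p - 1) / 4))) := by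
    have b1 : (4 * H) * (4 * H) ≤ p * (p - 1) :=
      mul_le_mul (by linarith) (by linarith) (by positivity) hp0.le
    calc (C * H ^ 6 * l) * (2 * L ^ 2 * μ ^ 3) * p
        = (2 * C * l * H * L * μ ^ 2) * (H ^ 5 * L * μ * p) := by ring
      _ ≤ h ^ 5 * (H ^ 5 * L * μ * p) := by gcongr
      _ = (h ^ 8 / 4) * (n1 * (p * ((4 * H) * (4 * H)) / 4)) := by
          rw [hn1, hHκ]; ring
      _ ≤ G * (n1 * (p * (p * (p - 1)) / 4)) := by gcongr
      _ = _ := by ring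
  have c1 : G * ((p - 1) * p ^ 3) * (n1 / (2 * p)) = G * (n1 * (p ^ 2 * ((p - 1) / 2))) := by
    field_simp
  rw [c1]
  have c2 : S * p ≤ G * (n1 * (p ^ 2 * ((p - 1) / 4))) :=
    (mul_le_mul_of_nonneg_right hS hp0.le).trans key
  have c3 : G * (n1 * (p ^ 2 * (3 * (p - 1) / 4))) ≤ G * (n1 * (p ^ 2 * (p - 1 - H))) := by
    gcongr
    linarith
  linarith

theorem config {ι : Type} [Fintype ι] (h p : ℕ) (hh : h.Prime) (hp : p.Prime)
    (μ κ T : ℕ) (u Y Z : ι → ℤ) (hμ : μ ≤ h) (hT : 2 * T < h) (hκ : 1 ≤ κ)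
    (hA1 : ∀ i j k, i ≠ j → i ≠ k → j ≠ k → ∀ m m' m'' : ℕ, m < μ → m' < μ → m'' < μ →
      ∀ t : ℤ, |t| ≤ T → ¬ (h : ℤ) ∣ det3 (av u Y Z i m) (av u Y Z j m') (av u Y Z k m'') - t)
    (hA2 : ∀ i j, i ≠ j → ¬ (h : ℤ) ∣ Y i * Z j - Y j * Z i)
    (hL : 2 ≤ Fintype.card ι) (hhL : h ≤ Fintype.card ι * μ ^ 2) (hpH : 4 * (κ * h) + 1 ≤ p)
    (hsmall : 2 * CC * ell (κ * h) * (κ * h) * Fintype.card ι * μ ^ 2 ≤ h ^ 5) :
    ∃ W : Finset Z3, W ⊆ box (κ * h) ∧ Fintype.card ι * μ * κ ^ 3 ≤ 2 * p * W.card ∧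
      (∀ x ∈ W, ∀ y ∈ W, x ≠ y → cr x y ≠ 0) ∧
      ∀ x ∈ W, ∀ y ∈ W, ∀ z ∈ W, x ≠ y → x ≠ z → y ≠ z → (T : ℤ) < |det3 x y z| := by
  classical
  have : Fact h.Prime := ⟨hh⟩
  have : Fact p.Prime := ⟨hp⟩
  set H := κ * h with hH
  have h2 : 2 ≤ h := hh.two_le
  have hH1 : 2 ≤ H := by rw [hH]; nlinarith
  obtain ⟨D, hD⟩ : ∃ D : ZMod p, ¬ IsSquare D :=
    FiniteField.exists_nonsquare (by rw [ZMod.ringChar_zmod_n]; omega)
  have hA2' : ∀ i j, i ≠ j → (Y i : ZMod h) * Z j - Y j * Z i ≠ 0 := by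
    intro i j hij hc
    apply hA2 i j hij
    apply (ZMod.intCast_zmod_eq_zero_iff_dvd _ h).1
    push_cast
    exact hc
  have hA3 : ∀ i, ¬ ((Y i : ZMod h) = 0 ∧ (Z i : ZMod h) = 0) := by
    intro i hi
    obtain ⟨j, hj⟩ := Fintype.exists_ne_of_one_lt_card (by omega : 1 < Fintype.card ι) i
    apply hA2' i j hj.symm
    rw [hi.1, hi.2]; ring
  set G : Finset (Matrix (Fin 3) (Fin 3) (ZMod h)) := univ.filter (fun g => g.det = 1) with hGdef
  have hG : ∀ g ∈ G, g.det = 1 := fun g hg => (mem_filter.1 hg).2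
  have hGc := card_G_lower G (fun g hg => mem_filter.2 ⟨mem_univ _, hg⟩)
  rw [ZMod.card] at hGc
  have hp2H : 2 * H ≤ p := by omega
  set L := Fintype.card ι with hLdef
  have hp1 : ((p - 1 : ℕ) : ℝ) = (p : ℝ) - 1 := by
    rw [Nat.cast_sub (by omega)]; simp
  have hh1 : ((h - 1 : ℕ) : ℝ) = (h : ℝ) - 1 := by
    rw [Nat.cast_sub (by omega)]; simp
  have hP : 4 * (H : ℝ) + 1 ≤ p := by exact_mod_cast hpH
  have hHr : (2 : ℝ) ≤ H := by exact_mod_cast hH1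
  have hhr : (2 : ℝ) ≤ h := by exact_mod_cast h2
  set n1 : ℝ := (L : ℝ) * μ * (κ : ℝ) ^ 3 with hn1
  have hn10 : 0 ≤ n1 := by positivity
  set F : Matrix (Fin 3) (Fin 3) (ZMod h) × (ZMod p × ZMod p × ZMod p × ZMod p) → ℝ := fun t =>
    ((WW u Y Z μ H D t.1 t.2).card : ℝ) - (B2 u Y Z μ H D t.1 t.2).card
      - (B3 u Y Z μ H T D t.1 t.2).card with hF
  have hg1 : ∀ g ∈ G, n1 * ((p : ℝ) ^ 2 * ((p : ℝ) - 1 - H)) - ((TG u Y Z μ H T g).card : ℝ) * p ≤
      ∑ w ∈ Om p, F (g, w) := by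
    intro g hg
    have a1 : ((SS u Y Z μ H g).card : ℝ) * (((p : ℝ) - 1) * (p : ℝ) ^ 2) ≤
        ∑ w ∈ Om p, ((WW u Y Z μ H D g w).card : ℝ) := by
      have := sum_WW u Y Z μ H D g
      rw [← hp1]
      exact_mod_cast this
    have a2 : ∑ w ∈ Om p, ((B2 u Y Z μ H D g w).card : ℝ) ≤
        ((SS u Y Z μ H g).card : ℝ) * H * (p : ℝ) ^ 2 := by
      exact_mod_cast sum_B2 u Y Z μ H D hp2H g
    have a3 : ∑ w ∈ Om p, ((B3 u Y Z μ H T D g w).card : ℝ) ≤
        ((TG u Y Z μ H T g).card : ℝ) * p := by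
      exact_mod_cast sum_B3 u Y Z μ H T D hp2H hD g
    have a4 : n1 ≤ ((SS u Y Z μ H g).card : ℝ) := by
      have := card_SS u Y Z μ H κ hH hμ hA2' g (hG g hg)
      rw [hn1]
      exact_mod_cast this
    have a5 : n1 * ((p : ℝ) ^ 2 * ((p : ℝ) - 1 - H)) ≤
        ((SS u Y Z μ H g).card : ℝ) * ((p : ℝ) ^ 2 * ((p : ℝ) - 1 - H)) :=
      mul_le_mul_of_nonneg_right a4 (mul_nonneg (by positivity) (by linarith))
    simp only [hF]
    rw [sum_sub_distrib, sum_sub_distrib]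
    linarith
  have hg2 := sum_le_sum hg1
  rw [sum_sub_distrib, sum_const, nsmul_eq_mul, ← sum_mul, ← sum_product'
    (f := fun g w => F (g, w))] at hg2
  have hg3 := sum_TG u Y Z μ H T hT hμ hA2' hA3 hhL G hG
  rw [← hLdef] at hg3
  have hGr : ((h : ℝ) - 1) ^ 2 * (h : ℝ) ^ 6 ≤ G.card := by
    rw [← hh1]
    exact_mod_cast hGc
  have hGr' : (h : ℝ) ^ 8 / 4 ≤ G.card := by
    refine le_trans ?_ hGr
    have : (h : ℝ) ^ 2 / 4 ≤ ((h : ℝ) - 1) ^ 2 := by nlinarith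
    calc (h : ℝ) ^ 8 / 4 = (h : ℝ) ^ 2 / 4 * (h : ℝ) ^ 6 := by ring
      _ ≤ _ := by gcongr
  have hsm : 2 * (CC : ℝ) * ell H * H * L * (μ : ℝ) ^ 2 ≤ (h : ℝ) ^ 5 := by exact_mod_cast hsmall
  have hHκ : (H : ℝ) = κ * h := by rw [hH]; push_cast; ring
  have hp0 : (0 : ℝ) < p := by linarith
  have hne : (G ×ˢ Om p).Nonempty := by
    refine ⟨(1, (1, 0, 0, 0)), mem_product.2 ⟨mem_filter.2 ⟨mem_univ _, det_one⟩,
      mem_Om.2 one_ne_zero⟩⟩
  have hsum : ∑ _t ∈ G ×ˢ Om p, n1 / (2 * p) ≤ ∑ t ∈ G ×ˢ Om p, F t := by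
    refine le_trans ?_ hg2
    rw [sum_const, nsmul_eq_mul, card_product, card_Om]
    push_cast
    rw [hp1]
    exact numeric hP hHr hGr' hsm hHκ hg3 (by positivity) (by positivity) (by positivity)
      (by positivity)
  obtain ⟨⟨g, w⟩, ht, hle⟩ := exists_le_of_sum_le hne hsum
  rw [mem_product] at ht
  obtain ⟨W, w1, w2, w3, w4⟩ := clean u Y Z μ H T D hp2H hD hA1 g (hG g ht.1) w (mem_Om.1 ht.2)
  refine ⟨W, w1, ?_, w3, w4⟩
  have w2' : ((WW u Y Z μ H D g w).card : ℝ) ≤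
      W.card + (B2 u Y Z μ H D g w).card + (B3 u Y Z μ H T D g w).card := by exact_mod_cast w2
  simp only [hF] at hle
  have w5 : n1 / (2 * p) ≤ W.card := by linarith
  rw [div_le_iff₀ (by positivity), hn1] at w5
  have w6 : ((L * μ * κ ^ 3 : ℕ) : ℝ) ≤ ((2 * p * W.card : ℕ) : ℝ) := by
    push_cast
    linarith
  exact_mod_cast w6

end Vale.Agent.P036
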