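import Vale.Agent.P036.Basic

namespace Vale.Agent.P036

open Finset

lemma norm_decomp (d : ℕ) (k E : Type) [Field k] [Field E] [Algebra k E]
    (b : Module.Basis (Fin d) k E) :
    ∃ φ ψ : (Equiv.Perm (Fin d) × Finset (Fin d)) → E → k,
      ∀ x y, Algebra.norm k (x - y) = ∑ J, φ J x * ψ J y := by
  classical
  refine ⟨fun J x => ((Equiv.Perm.sign J.1 : ℤ) : k) *
      ∏ i ∈ J.2, Algebra.leftMulMatrix b x (J.1 i) i,
    fun J y => ∏ i ∈ J.2ᶜ, -(Algebra.leftMulMatrix b y (J.1 i) i), fun x y => ?_⟩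
  rw [Algebra.norm_eq_matrix_det b, map_sub, Matrix.det_apply', Fintype.sum_prod_type]
  apply sum_congr rfl
  intro σ _
  simp only [Matrix.sub_apply, sub_eq_add_neg]
  rw [Fintype.prod_add, mul_sum]
  apply sum_congr rfl
  intro t _
  ring

lemma triple_sum {R : Type*} [CommRing R] {α : Type*} [Fintype α] (u v w : α → R) :
    (∑ i, u i) * (∑ i, v i) * (∑ i, w i) = ∑ t : α × α × α, u t.1 * v t.2.1 * w t.2.2 := by
  rw [mul_assoc, Finset.sum_mul_sum univ univ v w, Finset.sum_mul, Fintype.sum_prod_type]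
  apply sum_congr rfl
  intro i _
  rw [Fintype.sum_prod_type, mul_sum]
  apply sum_congr rfl
  intro j _
  rw [mul_sum]
  apply sum_congr rfl
  intro l _
  ring

lemma trilinear (d : ℕ) (hd : Odd d) : ∃ K : ℕ, ∀ (k E : Type) [Field k] [Field E] [Algebra k E]
    (_ : Module.Basis (Fin d) k E), (6 : k) ≠ 0 → ∃ f g h : Fin K → E → k,
      ∀ a b c : E, a ≠ b → a ≠ c → b ≠ c →
        ∑ I, det3 ![f I a, g I a, h I a] ![f I b, g I b, h I b] ![f I c, g I c, h I c] ≠ 0 := by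
  classical
  set J := Equiv.Perm (Fin d) × Finset (Fin d) with hJ
  refine ⟨Fintype.card (J × J × J), fun k E _ _ _ bs h6 => ?_⟩
  obtain ⟨φ, ψ, hφ⟩ := norm_decomp d k E bs
  set e := Fintype.equivFin (J × J × J) with he
  set f : J × J × J → E → k := fun t a => φ t.1 a * ψ t.2.2 a with hf
  set g : J × J × J → E → k := fun t a => ψ t.1 a * φ t.2.1 a with hg
  set h : J × J × J → E → k := fun t a => ψ t.2.1 a * φ t.2.2 a with hh
  have hF : ∀ a b c : E, ∑ t, f t a * g t b * h t c =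
      Algebra.norm k ((a - b) * (b - c) * (c - a)) := by
    intro a b c
    rw [map_mul, map_mul, hφ, hφ, hφ, triple_sum]
    apply sum_congr rfl
    intro t _
    simp only [hf, hg, hh]
    ring
  have hneg : ∀ x : E, Algebra.norm k (-x) = - Algebra.norm k x := by
    intro x
    have h1 : (-x) = algebraMap k E (-1) * x := by simp
    rw [h1, map_mul, Algebra.norm_algebraMap_of_basis bs, Fintype.card_fin, hd.neg_one_pow]
    ring
  refine ⟨fun I => f (e.symm I), fun I => g (e.symm I), fun I => h (e.symm I), ?_⟩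
  intro a b c hab hac hbc
  rw [Equiv.sum_comp e.symm
    (fun t => det3 ![f t a, g t a, h t a] ![f t b, g t b, h t b] ![f t c, g t c, h t c])]
  have e1 : ∑ t, det3 ![f t a, g t a, h t a] ![f t b, g t b, h t b] ![f t c, g t c, h t c] =
      ∑ t, f t a * g t b * h t c - ∑ t, f t a * g t c * h t b - ∑ t, f t b * g t a * h t c
        + ∑ t, f t c * g t a * h t b + ∑ t, f t b * g t c * h t a
        - ∑ t, f t c * g t b * h t a := by
    rw [← sum_sub_distrib, ← sum_sub_distrib, ← sum_add_distrib, ← sum_add_distrib,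
      ← sum_sub_distrib]
    apply sum_congr rfl
    intro t _
    rw [det3_eq]
    simp
    ring
  rw [e1, hF, hF, hF, hF, hF, hF]
  set V := (a - b) * (b - c) * (c - a) with hV
  rw [show (a - c) * (c - b) * (b - a) = -V by rw [hV]; ring,
    show (b - a) * (a - c) * (c - b) = -V by rw [hV]; ring,
    show (c - a) * (a - b) * (b - c) = V by rw [hV]; ring,
    show (b - c) * (c - a) * (a - b) = V by rw [hV]; ring,
    show (c - b) * (b - a) * (a - c) = -V by rw [hV]; ring, hneg]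
  have hV0 : V ≠ 0 := mul_ne_zero (mul_ne_zero (sub_ne_zero.2 hab) (sub_ne_zero.2 hbc))
    (sub_ne_zero.2 hac.symm)
  have hN : Algebra.norm k V ≠ 0 := (Algebra.norm_ne_zero_iff_of_basis bs).2 hV0
  intro hc
  apply mul_ne_zero h6 hN
  linear_combination hc

lemma abs_mul3_le {a b c A B C : ℤ} (ha : |a| ≤ A) (hb : |b| ≤ B) (hc : |c| ≤ C) :
    |a * b * c| ≤ A * B * C := by
  rw [abs_mul, abs_mul]
  have hA := (abs_nonneg _).trans ha
  have hB := (abs_nonneg _).trans hb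
  gcongr

lemma abs_det3_le {x y z : Z3} {A B C : ℤ} (x0 : |x 0| ≤ A) (y0 : |y 0| ≤ A) (z0 : |z 0| ≤ A)
    (x1 : |x 1| ≤ B) (y1 : |y 1| ≤ B) (z1 : |z 1| ≤ B)
    (x2 : |x 2| ≤ C) (y2 : |y 2| ≤ C) (z2 : |z 2| ≤ C) : |det3 x y z| ≤ 6 * (A * B * C) := by
  have h1 := abs_le.1 (abs_mul3_le x0 y1 z2)
  have h2 := abs_le.1 (abs_mul3_le x0 z1 y2)
  have h3 := abs_le.1 (abs_mul3_le y0 x1 z2)
  have h4 := abs_le.1 (abs_mul3_le y0 z1 x2)
  have h5 := abs_le.1 (abs_mul3_le z0 x1 y2)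
  have h6 := abs_le.1 (abs_mul3_le z0 y1 x2)
  rw [det3_eq, abs_le]
  constructor <;> nlinarith

lemma two_pow_add_eq {I J L : ℕ} (h : 2 ^ I + 2 ^ J = 2 ^ (L + 1)) : I = L ∧ J = L := by
  have p1 : 0 < 2 ^ I := by positivity
  have p2 : 0 < 2 ^ J := by positivity
  have hI : I < L + 1 := (Nat.pow_lt_pow_iff_right (by norm_num : 1 < 2)).1 (by omega)
  have hJ : J < L + 1 := (Nat.pow_lt_pow_iff_right (by norm_num : 1 < 2)).1 (by omega)
  have a1 : 2 ^ I ≤ 2 ^ L := Nat.pow_le_pow_right (by norm_num) (by omega)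
  have a2 : 2 ^ J ≤ 2 ^ L := Nat.pow_le_pow_right (by norm_num) (by omega)
  rw [pow_succ] at h
  exact ⟨Nat.pow_right_injective (le_refl 2) (show 2 ^ I = 2 ^ L by omega),
    Nat.pow_right_injective (le_refl 2) (show 2 ^ J = 2 ^ L by omega)⟩

lemma digits {K : ℕ} {ι : Type} (r B : ℕ) (f g h : Fin K → ι → ℤ)
    (hf : ∀ I a, |f I a| ≤ r) (hg : ∀ I a, |g I a| ≤ r) (hh : ∀ I a, |h I a| ≤ r)
    (hB : 24 * K ^ 3 * r ^ 3 ≤ B) (hB1 : 1 ≤ B) (hBr : K * r ≤ B) :
    ∃ c : ι → Z3, (∀ a i, |c a i| ≤ (B : ℤ) ^ (2 ^ K + 1)) ∧ ∀ a b e : ι,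
      (∑ I, det3 ![f I a, g I a, h I a] ![f I b, g I b, h I b] ![f I e, g I e, h I e] ≠ 0) →
      ∀ q : ℤ, (B : ℤ) ^ (2 ^ K + 1) ≤
        2 * B * |det3 (c a) (c b) (c e) - q * (B : ℤ) ^ (2 ^ K + 1)| := by
  classical
  have hBz : (1 : ℤ) ≤ B := by exact_mod_cast hB1
  set al : Fin K → ℕ := fun I => 2 ^ (I : ℕ) with hal
  set ga : Fin K → ℕ := fun I => 2 ^ K - 2 ^ ((I : ℕ) + 1) with hga
  have hle : ∀ I : Fin K, 2 ^ ((I : ℕ) + 1) ≤ 2 ^ K :=
    fun I => Nat.pow_le_pow_right (by norm_num) I.2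
  have hal' : ∀ I, al I ≤ 2 ^ K := fun I => Nat.pow_le_pow_right (by norm_num) I.2.le
  have hga' : ∀ I, ga I ≤ 2 ^ K := fun I => Nat.sub_le _ _
  have hsum : ∀ (u : Fin K → ℤ) (ex : Fin K → ℕ), (∀ I, |u I| ≤ r) → (∀ I, ex I ≤ 2 ^ K) →
      |∑ I, u I * (B : ℤ) ^ ex I| ≤ (B : ℤ) ^ (2 ^ K + 1) := by
    intro u ex hu hex
    refine (abs_sum_le_sum_abs _ _).trans ?_
    have : ∀ I ∈ (univ : Finset (Fin K)), |u I * (B : ℤ) ^ ex I| ≤ r * (B : ℤ) ^ (2 ^ K) := by
      intro I _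
      rw [abs_mul, abs_of_nonneg (by positivity : (0 : ℤ) ≤ (B : ℤ) ^ ex I)]
      exact mul_le_mul (hu I) (pow_le_pow_right₀ hBz (hex I)) (by positivity) (by positivity)
    refine (sum_le_card_nsmul _ _ _ this).trans ?_
    rw [card_univ, Fintype.card_fin, nsmul_eq_mul, pow_succ, ← mul_assoc, mul_comm]
    apply mul_le_mul_of_nonneg_left _ (by positivity)
    exact_mod_cast hBr
  refine ⟨fun a => ![∑ I, f I a * (B : ℤ) ^ al I, ∑ I, g I a * (B : ℤ) ^ al I,
    ∑ I, h I a * (B : ℤ) ^ ga I], ?_, ?_⟩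
  · intro a i
    fin_cases i
    · exact hsum _ _ (fun I => hf I a) hal'
    · exact hsum _ _ (fun I => hg I a) hal'
    · exact hsum _ _ (fun I => hh I a) hga'
  intro a b e hne q
  set dd : Fin K × Fin K × Fin K → ℤ := fun t => det3 ![f t.1 a, g t.2.1 a, h t.2.2 a]
    ![f t.1 b, g t.2.1 b, h t.2.2 b] ![f t.1 e, g t.2.1 e, h t.2.2 e] with hdd
  set ex : Fin K × Fin K × Fin K → ℕ := fun t => al t.1 + al t.2.1 + ga t.2.2 with hex
  have hexp : det3 ![∑ I, f I a * (B : ℤ) ^ al I, ∑ I, g I a * (B : ℤ) ^ al I,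
      ∑ I, h I a * (B : ℤ) ^ ga I] ![∑ I, f I b * (B : ℤ) ^ al I, ∑ I, g I b * (B : ℤ) ^ al I,
      ∑ I, h I b * (B : ℤ) ^ ga I] ![∑ I, f I e * (B : ℤ) ^ al I, ∑ I, g I e * (B : ℤ) ^ al I,
      ∑ I, h I e * (B : ℤ) ^ ga I] = ∑ t, dd t * (B : ℤ) ^ ex t := by
    set X : ι → ℤ := fun a => ∑ I, f I a * (B : ℤ) ^ al I with hX
    set Y : ι → ℤ := fun a => ∑ I, g I a * (B : ℤ) ^ al I with hY
    set Z : ι → ℤ := fun a => ∑ I, h I a * (B : ℤ) ^ ga I with hZ
    have : det3 ![X a, Y a, Z a] ![X b, Y b, Z b] ![X e, Y e, Z e] =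
        X a * Y b * Z e - X a * Y e * Z b - X b * Y a * Z e + X e * Y a * Z b + X b * Y e * Z a
          - X e * Y b * Z a := by
      rw [det3_eq]
      simp
      ring
    refine this.trans ?_
    simp only [hX, hY, hZ, triple_sum]
    rw [← sum_sub_distrib, ← sum_sub_distrib, ← sum_add_distrib, ← sum_add_distrib,
      ← sum_sub_distrib]
    apply sum_congr rfl
    intro t _
    simp only [hdd, hex, det3_eq, pow_add]
    simp
    ring
  show (B : ℤ) ^ (2 ^ K + 1) ≤ 2 * B * |det3 _ _ _ - q * (B : ℤ) ^ (2 ^ K + 1)|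
  rw [hexp]
  set s := 2 ^ K with hs
  have hs1 : 1 ≤ s := Nat.one_le_two_pow
  have hddb : ∀ t, |dd t| ≤ 6 * ((r : ℤ) * r * r) := fun t =>
    abs_det3_le (hf _ _) (hf _ _) (hf _ _) (hg _ _) (hg _ _) (hg _ _) (hh _ _) (hh _ _) (hh _ _)
  set lo : Fin K × Fin K × Fin K → ℤ := fun t => if ex t < s then dd t * (B : ℤ) ^ ex t else 0
  set mid : Fin K × Fin K × Fin K → ℤ := fun t => if ex t = s then dd t else 0
  set hi : Fin K × Fin K × Fin K → ℤ :=
    fun t => if s < ex t then dd t * (B : ℤ) ^ (ex t - (s + 1)) else 0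
  have hsplit : ∀ t, dd t * (B : ℤ) ^ ex t =
      lo t + mid t * (B : ℤ) ^ s + hi t * (B : ℤ) ^ (s + 1) := by
    intro t
    rcases lt_trichotomy (ex t) s with h1 | h1 | h1
    · simp only [lo, mid, hi, if_pos h1, if_neg h1.ne, if_neg h1.not_gt]; ring
    · simp only [lo, mid, hi, h1, lt_irrefl, if_false, if_true]; ring
    · simp only [lo, mid, hi, if_pos h1, if_neg h1.ne', if_neg h1.not_gt]
      rw [mul_assoc, ← pow_add, Nat.sub_add_cancel h1]; ring
  have hcardT : (Fintype.card (Fin K × Fin K × Fin K) : ℤ) = (K : ℤ) ^ 3 := by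
    simp only [Fintype.card_prod, Fintype.card_fin]; push_cast; ring
  have hB' : 24 * (K : ℤ) ^ 3 * (r : ℤ) ^ 3 ≤ B := by exact_mod_cast hB
  have hlo : 4 * |∑ t, lo t| ≤ (B : ℤ) ^ s := by
    have h1 : ∀ t ∈ (univ : Finset (Fin K × Fin K × Fin K)),
        |lo t| ≤ 6 * ((r : ℤ) * r * r) * (B : ℤ) ^ (s - 1) := by
      intro t _
      by_cases ht : ex t < s
      · simp only [lo, if_pos ht]
        rw [abs_mul, abs_of_nonneg (by positivity : (0 : ℤ) ≤ (B : ℤ) ^ ex t)]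
        exact mul_le_mul (hddb t) (pow_le_pow_right₀ hBz (by omega)) (by positivity)
          (by positivity)
      · simp only [lo, if_neg ht, abs_zero]; positivity
    have h2 := (abs_sum_le_sum_abs _ _).trans (sum_le_card_nsmul _ _ _ h1)
    rw [card_univ, nsmul_eq_mul, hcardT] at h2
    have h3 : (B : ℤ) ^ s = B * (B : ℤ) ^ (s - 1) := by
      rw [← pow_succ', Nat.sub_add_cancel hs1]
    rw [h3]
    have h4 : (0 : ℤ) ≤ (B : ℤ) ^ (s - 1) := by positivity
    nlinarith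
  have hmid : 4 * |∑ t, mid t| ≤ (B : ℤ) := by
    have h1 : ∀ t ∈ (univ : Finset (Fin K × Fin K × Fin K)), |mid t| ≤ 6 * ((r : ℤ) * r * r) := by
      intro t _
      by_cases ht : ex t = s
      · simp only [mid, if_pos ht]; exact hddb t
      · simp only [mid, if_neg ht, abs_zero]; positivity
    have h2 := (abs_sum_le_sum_abs _ _).trans (sum_le_card_nsmul _ _ _ h1)
    rw [card_univ, nsmul_eq_mul, hcardT] at h2
    nlinarith
  have hmid0 : ∑ t, mid t ≠ 0 := by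
    have : ∑ t, mid t = ∑ I, dd (I, I, I) := by
      rw [Fintype.sum_prod_type]
      apply sum_congr rfl
      intro I _
      rw [sum_eq_single (I, I)]
      · have : ex (I, I, I) = s := by
          have := hle I
          simp only [hex, hal, hga]
          rw [pow_succ] at this ⊢
          omega
        simp only [mid, if_pos this]
      · rintro ⟨J, L⟩ _ hne'
        have : ex (I, J, L) ≠ s := by
          intro he
          have h1 := hle L
          simp only [hex, hal, hga] at he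
          have h2 : 2 ^ (I : ℕ) + 2 ^ (J : ℕ) = 2 ^ ((L : ℕ) + 1) := by omega
          obtain ⟨e1, e2⟩ := two_pow_add_eq h2
          apply hne'
          exact Prod.ext (Fin.ext (e2.trans e1.symm)) (Fin.ext e1.symm)
        simp only [mid, if_neg this]
      · intro hc
        exact absurd (mem_univ _) hc
    rw [this]
    exact hne
  rw [sum_congr rfl (fun t _ => hsplit t), sum_add_distrib, sum_add_distrib, ← sum_mul, ← sum_mul]
  set L0 := ∑ t, lo t
  set D := ∑ t, mid t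
  set Hi := ∑ t, hi t
  have hn : D + (Hi - q) * B ≠ 0 := by
    intro hc
    apply hmid0
    apply Int.eq_zero_of_abs_lt_dvd (m := (B : ℤ)) ⟨q - Hi, by linarith⟩
    have := abs_nonneg D
    have h0 : 0 < |D| := abs_pos.2 hmid0
    linarith
  have hn1 : 1 ≤ |D + (Hi - q) * B| := Int.one_le_abs hn
  have hpos : (0 : ℤ) < (B : ℤ) ^ s := by positivity
  have e2 : L0 + D * (B : ℤ) ^ s + Hi * (B : ℤ) ^ (s + 1) - q * (B : ℤ) ^ (s + 1) =
      (D + (Hi - q) * B) * (B : ℤ) ^ s + L0 := by ring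
  rw [e2]
  have h5 : (B : ℤ) ^ s ≤ |(D + (Hi - q) * B) * (B : ℤ) ^ s| := by
    rw [abs_mul, abs_of_pos hpos]; nlinarith
  have h6 : |(D + (Hi - q) * B) * (B : ℤ) ^ s| ≤ |(D + (Hi - q) * B) * (B : ℤ) ^ s + L0| + |L0| := by
    have := abs_sub ((D + (Hi - q) * B) * (B : ℤ) ^ s + L0) L0
    rwa [add_sub_cancel_right] at this
  have h7 : (B : ℤ) ^ s ≤ 2 * |(D + (Hi - q) * B) * (B : ℤ) ^ s + L0| := by
    have := abs_nonneg L0
    linarith
  rw [pow_succ]
  nlinarith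

theorem core : ∃ e K0 : ℕ, ∀ r : ℕ, r.Prime → K0 ≤ r →
    ∃ (ι : Type) (_ : Fintype ι) (h0 : ℕ) (X Y Z : ι → ℤ), Fintype.card ι = r ^ 11 ∧ 0 < h0 ∧
      (∀ i, |Y i| ≤ (r : ℤ) ^ e ∧ |Z i| ≤ (r : ℤ) ^ e) ∧
      (∀ i j, i ≠ j → Y i * Z j - Y j * Z i ≠ 0) ∧
      (∀ i j k, i ≠ j → i ≠ k → j ≠ k → ∀ q : ℤ, (h0 : ℤ) ≤
        2 * (r : ℤ) ^ 4 * |det3 ![X i, Y i, Z i] ![X j, Y j, Z j] ![X k, Y k, Z k] - q * h0|) := by
  classical
  obtain ⟨K, hK⟩ := trilinear 11 (by decide)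
  refine ⟨4 * (2 ^ K + 1) * 6, 24 * K ^ 3 + K + 26, fun r hr hr0 => ?_⟩
  have : Fact r.Prime := ⟨hr⟩
  have : Fintype (GaloisField r 11) := Fintype.ofFinite _
  have hcard : Fintype.card (GaloisField r 11) = r ^ 11 := by
    rw [← Nat.card_eq_fintype_card, GaloisField.card r 11 (by norm_num)]
  have h6 : (6 : ZMod r) ≠ 0 := by
    intro h
    have : ((6 : ℕ) : ZMod r) = 0 := by exact_mod_cast h
    rw [ZMod.natCast_eq_zero_iff] at this
    have := Nat.le_of_dvd (by norm_num) this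
    omega
  obtain ⟨f, g, h, hfgh⟩ := hK (ZMod r) (GaloisField r 11)
    (Module.finBasisOfFinrankEq _ _ (GaloisField.finrank r (by norm_num))) h6
  have hval : ∀ x : ZMod r, |((x.val : ℕ) : ℤ)| ≤ r := by
    intro x
    rw [abs_of_nonneg (by positivity)]
    exact_mod_cast (ZMod.val_lt x).le
  have hr1 : 1 ≤ r := by omega
  obtain ⟨c, hc1, hc2⟩ := digits r (r ^ 4) (fun I a => ((f I a).val : ℤ))
    (fun I a => ((g I a).val : ℤ)) (fun I a => ((h I a).val : ℤ))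
    (fun I a => hval _) (fun I a => hval _) (fun I a => hval _)
    (by
      calc 24 * K ^ 3 * r ^ 3 ≤ r * r ^ 3 := Nat.mul_le_mul_right _ (by omega)
        _ = r ^ 4 := by ring)
    (Nat.one_le_pow _ _ hr1)
    (by
      calc K * r ≤ r * r := Nat.mul_le_mul_right _ (by omega)
        _ = r ^ 2 := by ring
        _ ≤ r ^ 4 := Nat.pow_le_pow_right hr1 (by norm_num))
  set h0 : ℕ := (r ^ 4) ^ (2 ^ K + 1) with hh0
  have hh0z : (((r ^ 4 : ℕ) : ℤ)) ^ (2 ^ K + 1) = (h0 : ℤ) := by rw [hh0]; push_cast; ring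
  rw [hh0z] at hc1 hc2
  have hgap : ∀ i j k : GaloisField r 11, i ≠ j → i ≠ k → j ≠ k → ∀ q : ℤ,
      (h0 : ℤ) ≤ 2 * (r : ℤ) ^ 4 * |det3 (c i) (c j) (c k) - q * h0| := by
    intro i j k hij hik hjk q
    have := hc2 i j k (by
      intro hz
      apply hfgh i j k hij hik hjk
      have h2 := congrArg (Int.cast : ℤ → ZMod r) hz
      rw [Int.cast_sum, Int.cast_zero] at h2
      rw [← h2]
      apply sum_congr rfl
      intro I _
      simp [det3_eq]) q
    simpa using this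
  have h26 : 26 ≤ h0 := by
    calc 26 ≤ r := by omega
      _ = r ^ 1 := (pow_one r).symm
      _ ≤ r ^ 4 := Nat.pow_le_pow_right hr1 (by norm_num)
      _ = (r ^ 4) ^ 1 := (pow_one _).symm
      _ ≤ h0 := Nat.pow_le_pow_right (Nat.one_le_pow _ _ hr1) (Nat.le_add_left _ _)
  have h26z : (26 : ℤ) ≤ h0 := by exact_mod_cast h26
  set kk : ℤ := 4 * (h0 : ℤ) ^ 2 + 1 with hkk
  have hE : (r : ℤ) ^ (4 * (2 ^ K + 1) * 6) = (h0 : ℤ) ^ 6 := by
    rw [hh0]; push_cast; rw [← pow_mul, ← pow_mul, mul_assoc]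
  refine ⟨GaloisField r 11, inferInstance, h0, fun i => c i 0, fun i => c i 1 - kk * c i 0,
    fun i => c i 2 - kk ^ 2 * c i 0, hcard, by omega, ?_, ?_, ?_⟩
  · intro i
    rw [hE]
    have hk0 : 0 ≤ kk := by positivity
    have hk1 : kk ≤ 5 * (h0 : ℤ) ^ 2 := by nlinarith
    have hk2 : kk ^ 2 ≤ (5 * (h0 : ℤ) ^ 2) ^ 2 := pow_le_pow_left₀ hk0 hk1 2
    have hk3 : kk ≤ kk ^ 2 := by nlinarith [sq_nonneg (h0 : ℤ)]
    have hb : ∀ (a t : ℤ), |a| ≤ h0 → 0 ≤ t → t ≤ kk ^ 2 → |a - t * c i 0| ≤ (h0 : ℤ) ^ 6 := by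
      intro a t ha ht ht'
      have h1 : |t * c i 0| ≤ (5 * (h0 : ℤ) ^ 2) ^ 2 * h0 := by
        rw [abs_mul, abs_of_nonneg ht]
        exact mul_le_mul (ht'.trans hk2) (hc1 i 0) (abs_nonneg _) (by positivity)
      have h2 := abs_sub a (t * c i 0)
      have h3 : (h0 : ℤ) ≤ (h0 : ℤ) ^ 5 := by
        calc (h0 : ℤ) = (h0 : ℤ) ^ 1 := (pow_one _).symm
          _ ≤ _ := pow_le_pow_right₀ (by linarith) (by norm_num)
      have h4 : 26 * (h0 : ℤ) ^ 5 ≤ (h0 : ℤ) ^ 6 := by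
        have : (0 : ℤ) ≤ (h0 : ℤ) ^ 5 := by positivity
        calc 26 * (h0 : ℤ) ^ 5 ≤ h0 * (h0 : ℤ) ^ 5 := by gcongr
          _ = _ := by ring
      nlinarith
    exact ⟨hb _ _ (hc1 i 1) hk0 hk3, hb _ _ (hc1 i 2) (by positivity) le_rfl⟩
  · intro i j hij hz
    obtain ⟨k, hk⟩ : ∃ k, k ∉ ({i, j} : Finset (GaloisField r 11)) := by
      by_contra hcon
      push Not at hcon
      have h1 : (univ : Finset (GaloisField r 11)).card ≤ ({i, j} : Finset _).card :=
        card_le_card (fun x _ => hcon x)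
      have h2 := card_le_two (a := i) (b := j)
      rw [card_univ, hcard] at h1
      have h3 : r ^ 1 ≤ r ^ 11 := Nat.pow_le_pow_right hr1 (by norm_num)
      rw [pow_one] at h3
      omega
    simp only [mem_insert, mem_singleton, not_or] at hk
    have hg := hgap i j k hij (Ne.symm hk.1) (Ne.symm hk.2) 0
    have w0 := abs_mul_sub_le (hc1 i 1) (hc1 j 2) (hc1 i 2) (hc1 j 1)
    have w1 := abs_mul_sub_le (hc1 i 2) (hc1 j 0) (hc1 i 0) (hc1 j 2)
    set a0 := c i 1 * c j 2 - c i 2 * c j 1 with ha0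
    set a1 := c i 2 * c j 0 - c i 0 * c j 2 with ha1
    set a2 := c i 0 * c j 1 - c i 1 * c j 0 with ha2
    have hz' : a0 + kk * a1 + kk ^ 2 * a2 = 0 := by
      rw [ha0, ha1, ha2]
      linear_combination hz
    have hk0 : 0 < kk := by positivity
    have z0 : a0 = 0 := by
      apply Int.eq_zero_of_abs_lt_dvd (m := kk) ⟨-a1 - kk * a2, by linear_combination hz'⟩
      nlinarith
    have z01 : a1 + kk * a2 = 0 := by
      apply mul_left_cancel₀ hk0.ne'
      linear_combination hz' - z0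
    have z1 : a1 = 0 := by
      apply Int.eq_zero_of_abs_lt_dvd (m := kk) ⟨-a2, by linear_combination z01⟩
      nlinarith
    have z2 : a2 = 0 := by
      apply mul_left_cancel₀ hk0.ne'
      linear_combination z01 - z1
    rw [det3_eq, ← ha0, ← ha1, ← ha2, z0, z1, z2] at hg
    simp at hg
    omega
  · intro i j k hij hik hjk q
    have := hgap i j k hij hik hjk q
    convert this using 4
    rw [det3_eq, det3_eq]
    simp
    ring

end Vale.Agent.P036
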