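import Vale.Agent.P036.Basic

namespace Vale.Agent.P036

open Finset

/-- integer points of sup norm at most y -/
noncomputable def ball (y : ℕ) : Finset Z3 := Fintype.piFinset (fun _ : Fin 3 => Icc (-(y : ℤ)) y)

lemma mem_ball {y : ℕ} {v : Z3} : v ∈ ball y ↔ nrm v ≤ y := by
  unfold ball
  rw [Fintype.mem_piFinset]
  constructor
  · intro h
    apply nrm_le
    intro i
    have := h i
    rw [mem_Icc] at this
    exact abs_le.2 this
  · intro h i
    rw [mem_Icc]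
    have h1 := abs_le_nrm v i
    have h2 : (nrm v : ℤ) ≤ y := by exact_mod_cast h
    exact abs_le.1 (h1.trans h2)

lemma card_Icc_symm (y : ℕ) : (Icc (-(y : ℤ)) y).card = 2 * y + 1 := by
  rw [Int.card_Icc]; omega

lemma card_Icc_zero (y : ℕ) : (Icc (0 : ℤ) y).card = y + 1 := by
  rw [Int.card_Icc, sub_zero]; exact Int.toNat_natCast (y + 1)

lemma card_ball (y : ℕ) : (ball y).card = (2 * y + 1) ^ 3 := by
  unfold ball
  rw [Fintype.card_piFinset]
  simp only [card_Icc_symm]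
  simp

lemma dyadic_sum (V : Finset Z3) (y0 Y : ℕ) (c : ℝ) (hc : 0 ≤ c)
    (hV : ∀ v ∈ V, y0 ≤ 3 * nrm v ∧ 1 ≤ nrm v ∧ nrm v ≤ Y)
    (hcount : ∀ y : ℕ, y0 ≤ 3 * y → 1 ≤ y →
      ((V.filter (fun v => nrm v ≤ y)).card : ℝ) ≤ c * (y : ℝ) ^ 3) :
    ∑ v ∈ V, 1 / (nrm v : ℝ) ^ 3 ≤ 8 * c * ((Nat.log 2 Y + 1 : ℕ) : ℝ) := by
  classical
  rw [← Finset.sum_fiberwise_of_maps_to (s := V) (t := range (Nat.log 2 Y + 1))
    (g := fun v => Nat.log 2 (nrm v))
    (fun v hv => mem_range.2 (Nat.lt_succ_of_le (Nat.log_mono_right (hV v hv).2.2)))]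
  have hj : ∀ j ∈ range (Nat.log 2 Y + 1),
      ∑ v ∈ V with Nat.log 2 (nrm v) = j, 1 / (nrm v : ℝ) ^ 3 ≤ 8 * c := by
    intro j _
    rcases (V.filter (fun v => Nat.log 2 (nrm v) = j)).eq_empty_or_nonempty with he | ⟨v0, hv0⟩
    · rw [he]; simp only [sum_empty]; positivity
    rw [mem_filter] at hv0
    have hlt : ∀ v : Z3, Nat.log 2 (nrm v) = j → nrm v ≤ 2 ^ (j + 1) := by
      intro v hv
      rw [← hv]
      exact (Nat.lt_pow_succ_log_self (by norm_num) _).le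
    have hy := hcount (2 ^ (j + 1)) ((hV v0 hv0.1).1.trans (Nat.mul_le_mul_left _ (hlt v0 hv0.2)))
      Nat.one_le_two_pow
    have hsub : V.filter (fun v => Nat.log 2 (nrm v) = j) ⊆
        V.filter (fun v => nrm v ≤ 2 ^ (j + 1)) := by
      intro v hv
      rw [mem_filter] at hv ⊢
      exact ⟨hv.1, hlt v hv.2⟩
    have hcard : ((V.filter (fun v => Nat.log 2 (nrm v) = j)).card : ℝ) ≤
        c * ((2 : ℝ) ^ (j + 1)) ^ 3 := by
      have := card_le_card hsub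
      have h2 : ((V.filter (fun v => Nat.log 2 (nrm v) = j)).card : ℝ) ≤
        ((V.filter (fun v => nrm v ≤ 2 ^ (j + 1))).card : ℝ) := by exact_mod_cast this
      refine h2.trans (hy.trans (le_of_eq ?_))
      push_cast; ring
    have hterm : ∀ v ∈ V.filter (fun v => Nat.log 2 (nrm v) = j),
        1 / (nrm v : ℝ) ^ 3 ≤ 1 / ((2 : ℝ) ^ j) ^ 3 := by
      intro v hv
      rw [mem_filter] at hv
      have h1 : 2 ^ j ≤ nrm v := by
        rw [← hv.2]
        exact Nat.pow_log_le_self 2 (by have := (hV v hv.1).2.1; omega)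
      have h2 : (2 : ℝ) ^ j ≤ nrm v := by exact_mod_cast h1
      apply one_div_le_one_div_of_le (by positivity)
      exact pow_le_pow_left₀ (by positivity) h2 3
    calc ∑ v ∈ V with Nat.log 2 (nrm v) = j, 1 / (nrm v : ℝ) ^ 3
        ≤ ((V.filter (fun v => Nat.log 2 (nrm v) = j)).card : ℝ) * (1 / ((2 : ℝ) ^ j) ^ 3) := by
          have := sum_le_card_nsmul _ _ _ hterm
          rwa [nsmul_eq_mul] at this
      _ ≤ c * ((2 : ℝ) ^ (j + 1)) ^ 3 * (1 / ((2 : ℝ) ^ j) ^ 3) :=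
          mul_le_mul_of_nonneg_right hcard (by positivity)
      _ = 8 * c := by field_simp; ring
  have := sum_le_card_nsmul _ _ _ hj
  rw [nsmul_eq_mul, card_range] at this
  linarith

lemma cover_bound {α : Type*} [DecidableEq α] (T : Finset α) (V : Finset Z3) (fib : Z3 → Finset α)
    (D : ℝ) (hcov : ∀ t ∈ T, ∃ v ∈ V, t ∈ fib v)
    (hfib : ∀ v ∈ V, ((fib v).card : ℝ) ≤ D * (1 / (nrm v : ℝ) ^ 3)) :
    (T.card : ℝ) ≤ D * ∑ v ∈ V, 1 / (nrm v : ℝ) ^ 3 := by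
  have h1 : T ⊆ V.biUnion fib := by
    intro t ht
    rw [mem_biUnion]
    exact hcov t ht
  have h2 := (card_le_card h1).trans card_biUnion_le
  have h3 : (T.card : ℝ) ≤ ∑ v ∈ V, ((fib v).card : ℝ) := by exact_mod_cast h2
  rw [mul_sum]
  exact h3.trans (sum_le_sum hfib)

lemma eq_of_div_eq {h : ℕ} (hh : 0 < h) {a b y : ℤ} (hd : (h : ℤ) ∣ a - b)
    (he : (a + y) / h = (b + y) / h) : a = b := by
  have hpos : (0 : ℤ) < h := by exact_mod_cast hh
  have f1 := Int.mul_ediv_add_emod (a + y) h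
  have f2 := Int.mul_ediv_add_emod (b + y) h
  have f3 := Int.emod_nonneg (a + y) hpos.ne'
  have f4 := Int.emod_nonneg (b + y) hpos.ne'
  have f5 := Int.emod_lt_of_pos (a + y) hpos
  have f6 := Int.emod_lt_of_pos (b + y) hpos
  rw [he] at f1
  have : a - b = 0 := Int.eq_zero_of_abs_lt_dvd hd (abs_lt.2 ⟨by linarith, by linarith⟩)
  linarith

lemma div_mem_Icc {h y : ℕ} (hh : 0 < h) {a : ℤ} (ha : |a| ≤ y) :
    (a + y) / h ∈ Icc (0 : ℤ) ((2 * y / h : ℕ) : ℤ) := by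
  have hpos : (0 : ℤ) < h := by exact_mod_cast hh
  rw [abs_le] at ha
  rw [mem_Icc]
  refine ⟨Int.ediv_nonneg (by linarith) hpos.le, ?_⟩
  push_cast
  exact Int.ediv_le_ediv hpos (by linarith)

lemma div_bound {h y : ℕ} (hh : 0 < h) (hy : h ≤ 3 * y) :
    (((2 * y / h : ℕ) + 1 : ℕ) : ℝ) ≤ 5 * (y : ℝ) / h := by
  have hpos : (0 : ℝ) < h := by exact_mod_cast hh
  rw [le_div_iff₀ hpos]
  have h1 : 2 * y / h * h ≤ 2 * y := Nat.div_mul_le_self _ _
  have h2 : (2 * y / h + 1) * h ≤ 5 * y := by nlinarith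
  exact_mod_cast h2

lemma count_class1 {h y : ℕ} (hh : 0 < h) (hy : h ≤ 3 * y) (V : Finset Z3)
    (hV : ∀ v ∈ V, nrm v ≤ y) (j : Fin 3)
    (hdet : ∀ v ∈ V, ∀ v' ∈ V, v j = v' j → ∀ i, (h : ℤ) ∣ v i - v' i) :
    (V.card : ℝ) ≤ 75 / (h : ℝ) ^ 2 * (y : ℝ) ^ 3 := by
  classical
  have hy1 : 1 ≤ y := by omega
  set t : Fin 3 → Finset ℤ :=
    fun i => if i = j then Icc (-(y : ℤ)) y else Icc (0 : ℤ) ((2 * y / h : ℕ) : ℤ) with ht
  have hb : ∀ v ∈ V, ∀ i, |v i| ≤ (y : ℤ) := fun v hv i =>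
    (abs_le_nrm v i).trans (by exact_mod_cast hV v hv)
  have hcard : V.card ≤ (Fintype.piFinset t).card := by
    apply card_le_card_of_injOn (fun (v : Z3) (i : Fin 3) => if i = j then v j else (v i + (y : ℤ)) / (h : ℤ))
    · intro v hv
      have hv' : v ∈ V := hv
      rw [mem_coe, Fintype.mem_piFinset]
      intro i
      by_cases hi : i = j
      · simp only [ht, hi, if_true]
        exact mem_Icc.2 (abs_le.1 (hb v hv' j))
      · simp only [ht, hi, if_false]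
        exact div_mem_Icc hh (hb v hv' i)
    · intro v hv v' hv' he
      have hj : v j = v' j := by simpa using congrFun he j
      funext i
      by_cases hi : i = j
      · rw [hi, hj]
      · have := congrFun he i
        simp only [hi, if_false] at this
        exact eq_of_div_eq hh (hdet v hv v' hv' hj i) this
  have hprod : (Fintype.piFinset t).card = (2 * y + 1) * (2 * y / h + 1) ^ 2 := by
    rw [Fintype.card_piFinset, Fin.prod_univ_three]
    have a1 := card_Icc_symm y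
    have a2 := card_Icc_zero (2 * y / h)
    fin_cases j <;> simp only [ht] <;> simp only [Fin.zero_eta, Fin.mk_one, Fin.reduceFinMk,
      Fin.isValue, Fin.reduceEq, if_true, if_false, a1, a2] <;> ring
  rw [hprod] at hcard
  have h1 := div_bound hh hy
  have h2 : ((2 * y + 1 : ℕ) : ℝ) ≤ 3 * y := by
    have : 2 * y + 1 ≤ 3 * y := by omega
    exact_mod_cast this
  have h3 : (V.card : ℝ) ≤ ((2 * y + 1 : ℕ) : ℝ) * (((2 * y / h : ℕ) + 1 : ℕ) : ℝ) ^ 2 := by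
    exact_mod_cast hcard
  have hpos : (0 : ℝ) < h := by exact_mod_cast hh
  calc (V.card : ℝ) ≤ _ := h3
    _ ≤ (3 * y) * (5 * (y : ℝ) / h) ^ 2 := by gcongr
    _ = 75 / (h : ℝ) ^ 2 * (y : ℝ) ^ 3 := by field_simp; ring

lemma count_class2 {h y : ℕ} (hh : 0 < h) (hy : h ≤ 3 * y) (V : Finset Z3)
    (hV : ∀ v ∈ V, nrm v ≤ y) (hs : ∀ v ∈ V, (h : ℤ) ∣ v 0 + v 1 + v 2) :
    (V.card : ℝ) ≤ 45 / (h : ℝ) * (y : ℝ) ^ 3 := by
  classical
  have hy1 : 1 ≤ y := by omega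
  have hb : ∀ v ∈ V, ∀ i, |v i| ≤ (y : ℤ) := fun v hv i =>
    (abs_le_nrm v i).trans (by exact_mod_cast hV v hv)
  have hcard : V.card ≤ ((Icc (-(y : ℤ)) y) ×ˢ (Icc (-(y : ℤ)) y) ×ˢ
      (Icc (0 : ℤ) ((2 * y / h : ℕ) : ℤ))).card := by
    apply card_le_card_of_injOn (fun v : Z3 => (v 0, v 1, (v 2 + (y : ℤ)) / (h : ℤ)))
    · intro v hv
      have hv' : v ∈ V := hv
      rw [mem_coe, mem_product, mem_product]
      exact ⟨mem_Icc.2 (abs_le.1 (hb v hv' 0)), mem_Icc.2 (abs_le.1 (hb v hv' 1)),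
        div_mem_Icc hh (hb v hv' 2)⟩
    · intro v hv v' hv' he
      simp only [Prod.mk.injEq] at he
      obtain ⟨e0, e1, e2⟩ := he
      refine vec_ext e0 e1 (eq_of_div_eq hh ?_ e2)
      have := dvd_sub (hs v hv) (hs v' hv')
      rw [e0, e1] at this
      rwa [show v 2 - v' 2 = v' 0 + v' 1 + v 2 - (v' 0 + v' 1 + v' 2) by ring]
  rw [card_product, card_product, card_Icc_symm, card_Icc_zero] at hcard
  have h1 := div_bound hh hy
  have h2 : ((2 * y + 1 : ℕ) : ℝ) ≤ 3 * y := by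
    have : 2 * y + 1 ≤ 3 * y := by omega
    exact_mod_cast this
  have h3 : (V.card : ℝ) ≤ ((2 * y + 1 : ℕ) : ℝ) * (((2 * y + 1 : ℕ) : ℝ) *
      (((2 * y / h : ℕ) + 1 : ℕ) : ℝ)) := by
    exact_mod_cast hcard
  have hpos : (0 : ℝ) < h := by exact_mod_cast hh
  calc (V.card : ℝ) ≤ _ := h3
    _ ≤ (3 * y) * ((3 * y) * (5 * (y : ℝ) / h)) := by gcongr
    _ = 45 / (h : ℝ) * (y : ℝ) ^ 3 := by field_simp; ring

lemma count_ball {y : ℕ} (hy : 1 ≤ y) (V : Finset Z3) (hV : ∀ v ∈ V, nrm v ≤ y) :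
    (V.card : ℝ) ≤ 27 * (y : ℝ) ^ 3 := by
  have h1 : V ⊆ ball y := fun v hv => mem_ball.2 (hV v hv)
  have h2 := card_le_card h1
  rw [card_ball] at h2
  have h3 : (2 * y + 1) ^ 3 ≤ (3 * y) ^ 3 := Nat.pow_le_pow_left (by omega) 3
  have h4 : V.card ≤ 27 * y ^ 3 := by
    calc V.card ≤ (3 * y) ^ 3 := h2.trans h3
      _ = 27 * y ^ 3 := by ring
  exact_mod_cast h4

/-- the cube of side 2H -/
noncomputable def cube (H : ℕ) : Finset Z3 := Fintype.piFinset (fun _ : Fin 3 => Ico (0 : ℤ) (2 * H))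

lemma mem_cube {H : ℕ} {x : Z3} : x ∈ cube H ↔ ∀ i, 0 ≤ x i ∧ x i < 2 * H := by
  unfold cube
  rw [Fintype.mem_piFinset]
  simp only [mem_Ico]

lemma nrm_cube {H : ℕ} {x : Z3} (hx : x ∈ cube H) : nrm x ≤ 2 * H := by
  apply nrm_le
  intro i
  have := mem_cube.1 hx i
  push_cast
  exact abs_le.2 ⟨by linarith, by linarith⟩

lemma nrm_sub_cube {H : ℕ} {x y : Z3} (hx : x ∈ cube H) (hy : y ∈ cube H) :
    nrm (x - y) ≤ 2 * H := by
  apply nrm_le
  intro i
  have h1 := mem_cube.1 hx i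
  have h2 := mem_cube.1 hy i
  push_cast
  simp only [Pi.sub_apply]
  exact abs_le.2 ⟨by linarith, by linarith⟩

lemma nrm_cr_cube {H : ℕ} {x y : Z3} (hx : x ∈ cube H) (hy : y ∈ cube H) :
    nrm (cr x y) ≤ 8 * H ^ 2 := by
  refine (nrm_cr_le x y).trans ?_
  have h1 := nrm_cube hx
  have h2 := nrm_cube hy
  calc 2 * nrm x * nrm y ≤ 2 * (2 * H) * (2 * H) := by gcongr
    _ = 8 * H ^ 2 := by ring

lemma plane_bound {H : ℕ} {v : Z3} (hv : Prim v) (m : ℕ) (hm : 1 ≤ m) (w1 w2 : Z3)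
    (hw1 : w1 ∈ cube H) (hw2 : w2 ∈ cube H) (h12 : cr w1 w2 ≠ 0)
    (h1 : dt v w1 = 0 ∧ (m : ℤ) ∣ w1 0 - w1 1 ∧ (m : ℤ) ∣ w1 1 - w1 2)
    (h2 : dt v w2 = 0 ∧ (m : ℤ) ∣ w2 0 - w2 1 ∧ (m : ℤ) ∣ w2 1 - w2 2)
    (S : Finset Z3) (hS : S ⊆ cube H)
    (hS' : ∀ x ∈ S, ∀ y ∈ S, dt v (x - y) = 0 ∧ (m : ℤ) ∣ (x - y) 0 - (x - y) 1 ∧
      (m : ℤ) ∣ (x - y) 1 - (x - y) 2) :
    (S.card : ℝ) ≤ 72 * (H : ℝ) ^ 2 / m / nrm v := by
  have key := lattice_count
    (fun w => dt v w = 0 ∧ (m : ℤ) ∣ w 0 - w 1 ∧ (m : ℤ) ∣ w 1 - w 2) ((m : ℤ) • v) (2 * H)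
    (by
      rintro w w' ⟨a1, ⟨s, a2⟩, ⟨t, a3⟩⟩ ⟨b1, ⟨s', b2⟩, ⟨t', b3⟩⟩
      obtain ⟨k, hk, hk'⟩ := hv.cr_eq a1 b1
      have : (m : ℤ) ∣ k := by
        apply hk'
        intro i
        have e0 : w 0 = w 2 + m * t + m * s := by linarith
        have e1 : w 1 = w 2 + m * t := by linarith
        have e0' : w' 0 = w' 2 + m * t' + m * s' := by linarith
        have e1' : w' 1 = w' 2 + m * t' := by linarith
        fin_cases i
        · exact ⟨t * w' 2 - w 2 * t', by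
            show w 1 * w' 2 - w 2 * w' 1 = _
            rw [e1, e1']; ring⟩
        · exact ⟨w 2 * (t' + s') - (t + s) * w' 2, by
            show w 2 * w' 0 - w 0 * w' 2 = _
            rw [e0, e0']; ring⟩
        · exact ⟨s * w' 1 - w 1 * s', by
            show w 0 * w' 1 - w 1 * w' 0 = _
            have e3 : w 0 = w 1 + m * s := by linarith
            have e3' : w' 0 = w' 1 + m * s' := by linarith
            rw [e3, e3']; ring⟩
      obtain ⟨k', rfl⟩ := this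
      exact ⟨k', by rw [hk, smul_smul, mul_comm]⟩)
    w1 w2 h1 h2 h12 (nrm_cube hw1) (nrm_cube hw2) S
    (fun x hx y hy => ⟨hS' x hx y hy, nrm_sub_cube (hS hx) (hS hy)⟩)
  rw [nrm_smul, Int.natAbs_natCast] at key
  have hn : (0 : ℝ) < nrm v := by exact_mod_cast nrm_pos hv.ne_zero
  have hm' : (0 : ℝ) < m := by exact_mod_cast hm
  rw [le_div_iff₀ hn, le_div_iff₀ hm']
  have : (S.card : ℝ) * (m * nrm v) ≤ 18 * (2 * H) ^ 2 := by exact_mod_cast key
  nlinarith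

/-- triples of points in the cube -/
noncomputable def cube3 (H : ℕ) : Finset (Z3 × Z3 × Z3) := cube H ×ˢ cube H ×ˢ cube H

lemma mem_cube3 {H : ℕ} {q : Z3 × Z3 × Z3} :
    q ∈ cube3 H ↔ q.1 ∈ cube H ∧ q.2.1 ∈ cube H ∧ q.2.2 ∈ cube H := by
  unfold cube3
  rw [mem_product, mem_product]

/-- the logarithmic factor -/
def ell (H : ℕ) : ℕ := Nat.log 2 (8 * H ^ 2) + 1

lemma dt_sub (v x y : Z3) : dt v (x - y) = dt v x - dt v y := by
  unfold dt; simp only [Pi.sub_apply]; ring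

lemma dt_smul (g : ℤ) (v x : Z3) : dt (g • v) x = g * dt v x := by
  unfold dt; simp only [Pi.smul_apply, smul_eq_mul]; ring

lemma dt_cr_left (x y : Z3) : dt (cr x y) x = 0 := by
  unfold dt; simp only [cr_zero', cr_one', cr_two']; ring

lemma dt_cr_right (x y : Z3) : dt (cr x y) y = 0 := by
  unfold dt; simp only [cr_zero', cr_one', cr_two']; ring

theorem count_det (H : ℕ) (t : ℤ) (T : Finset (Z3 × Z3 × Z3))
    (hT : ∀ q ∈ T, q ∈ cube3 H ∧ cr q.1 q.2.1 ≠ 0 ∧ det3 q.1 q.2.1 q.2.2 = t) :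
    (T.card : ℝ) ≤ (72 * (H : ℝ) ^ 2) ^ 3 * (8 * 27 * (ell H : ℝ)) := by
  classical
  set V := (ball (8 * H ^ 2)).filter Prim with hV
  have h1 := cover_bound T V (fun v => T.filter (fun q => dt v q.1 = 0 ∧ dt v q.2.1 = 0))
    ((72 * (H : ℝ) ^ 2) ^ 3)
    (by
      intro q hq
      obtain ⟨hc, hne, _⟩ := hT q hq
      rw [mem_cube3] at hc
      obtain ⟨g, v, hg, hv, he⟩ := exists_prim hne
      refine ⟨v, mem_filter.2 ⟨mem_ball.2 ((nrm_le_of_smul hg he).trans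
        (nrm_cr_cube hc.1 hc.2.1)), hv⟩, mem_filter.2 ⟨hq, ?_, ?_⟩⟩
      · have := dt_cr_left q.1 q.2.1
        rw [he, dt_smul] at this
        exact (mul_eq_zero.1 this).resolve_left hg
      · have := dt_cr_right q.1 q.2.1
        rw [he, dt_smul] at this
        exact (mul_eq_zero.1 this).resolve_left hg)
    (by
      intro v hv
      have hp : Prim v := (mem_filter.1 hv).2
      have hn : (0 : ℝ) < nrm v := by exact_mod_cast nrm_pos hp.ne_zero
      rcases (T.filter (fun q => dt v q.1 = 0 ∧ dt v q.2.1 = 0)).eq_empty_or_nonempty with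
        he | ⟨q0, hq0⟩
      · rw [he]; simp only [card_empty, Nat.cast_zero]; positivity
      rw [mem_filter] at hq0
      obtain ⟨hq0T, a1, a2⟩ := hq0
      obtain ⟨hc0, hne0, _⟩ := hT q0 hq0T
      rw [mem_cube3] at hc0
      set A : ℝ := 72 * (H : ℝ) ^ 2 / nrm v with hA
      have hgen : ∀ S : Finset Z3, S ⊆ cube H → (∀ x ∈ S, ∀ y ∈ S, dt v (x - y) = 0) →
          (S.card : ℝ) ≤ A := by
        intro S hS hS'
        have := plane_bound hp 1 le_rfl q0.1 q0.2.1 hc0.1 hc0.2.1 hne0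
          ⟨a1, by simp, by simp⟩ ⟨a2, by simp, by simp⟩ S hS
          (fun x hx y hy => ⟨hS' x hx y hy, by simp, by simp⟩)
        simpa [hA] using this
      set S := (cube H).filter (fun x => dt v x = 0) with hS
      have hSc : (S.card : ℝ) ≤ A := by
        apply hgen S (filter_subset _ _)
        intro x hx y hy
        rw [dt_sub, (mem_filter.1 hx).2, (mem_filter.1 hy).2, sub_self]
      set Zf : Z3 × Z3 → Finset Z3 :=
        fun p => (cube H).filter (fun z => cr p.1 p.2 ≠ 0 ∧ det3 p.1 p.2 z = t) with hZf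
      have hZ : ∀ p ∈ S ×ˢ S, ((Zf p).card : ℝ) ≤ A := by
        intro p hp'
        rw [mem_product] at hp'
        apply hgen _ (filter_subset _ _)
        intro x hx y hy
        obtain ⟨k, hk, _⟩ := hp.cr_eq (mem_filter.1 hp'.1).2 (mem_filter.1 hp'.2).2
        obtain ⟨_, b1, b2⟩ := mem_filter.1 hx
        obtain ⟨_, _, b3⟩ := mem_filter.1 hy
        have hk0 : k ≠ 0 := by
          rintro rfl
          exact b1 (by simpa using hk)
        unfold det3 at b2 b3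
        rw [hk, dt_smul] at b2 b3
        rw [dt_sub]
        apply mul_left_cancel₀ hk0
        linarith
      have hsub : T.filter (fun q => dt v q.1 = 0 ∧ dt v q.2.1 = 0) ⊆
          (S ×ˢ S).biUnion (fun p => (Zf p).image (fun z => (p.1, p.2, z))) := by
        intro q hq
        rw [mem_filter] at hq
        obtain ⟨hqT, c1, c2⟩ := hq
        obtain ⟨hc, hne, hd⟩ := hT q hqT
        rw [mem_cube3] at hc
        rw [mem_biUnion]
        refine ⟨(q.1, q.2.1), mem_product.2 ⟨mem_filter.2 ⟨hc.1, c1⟩, mem_filter.2 ⟨hc.2.1, c2⟩⟩,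
          mem_image.2 ⟨q.2.2, mem_filter.2 ⟨hc.2.2, hne, hd⟩, rfl⟩⟩
      have h2 := (card_le_card hsub).trans card_biUnion_le
      have h3 : ((T.filter (fun q => dt v q.1 = 0 ∧ dt v q.2.1 = 0)).card : ℝ) ≤
          ∑ p ∈ S ×ˢ S, (((Zf p).image (fun z => (p.1, p.2, z))).card : ℝ) := by
        exact_mod_cast h2
      have h4 : ∑ p ∈ S ×ˢ S, (((Zf p).image (fun z => (p.1, p.2, z))).card : ℝ) ≤
          (S ×ˢ S).card • A := by
        apply sum_le_card_nsmul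
        intro p hp'
        refine le_trans ?_ (hZ p hp')
        exact_mod_cast card_image_le
      rw [nsmul_eq_mul, card_product] at h4
      push_cast at h4
      have hA0 : 0 ≤ A := by positivity
      calc _ ≤ (S.card : ℝ) * S.card * A := h3.trans h4
        _ ≤ A * A * A := by gcongr
        _ = (72 * (H : ℝ) ^ 2) ^ 3 * (1 / (nrm v : ℝ) ^ 3) := by
          rw [hA]; field_simp)
  refine h1.trans (mul_le_mul_of_nonneg_left ?_ (by positivity))
  apply dyadic_sum V 0 (8 * H ^ 2) 27 (by norm_num)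
  · intro v hv
    rw [mem_filter] at hv
    exact ⟨Nat.zero_le _, nrm_pos hv.2.ne_zero, mem_ball.1 hv.1⟩
  · intro y _ hy
    exact count_ball hy _ (fun v hv => (mem_filter.1 hv).2)

/-- v is a linear relation between the three vectors of q -/
def Rel (v : Z3) (q : Z3 × Z3 × Z3) : Prop :=
  ∀ k, v 0 * q.1 k + v 1 * q.2.1 k + v 2 * q.2.2 k = 0

/-- the k-th coordinates of a triple -/
def row (q : Z3 × Z3 × Z3) (k : Fin 3) : Z3 := ![q.1 k, q.2.1 k, q.2.2 k]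

lemma row_mem {H : ℕ} {q : Z3 × Z3 × Z3} (hq : q ∈ cube3 H) (k : Fin 3) : row q k ∈ cube H := by
  rw [mem_cube3] at hq
  rw [mem_cube]
  intro i
  fin_cases i
  · exact mem_cube.1 hq.1 k
  · exact mem_cube.1 hq.2.1 k
  · exact mem_cube.1 hq.2.2 k

lemma exists_rows {q : Z3 × Z3 × Z3} (h : cr q.1 q.2.1 ≠ 0) :
    ∃ k l, cr (row q k) (row q l) ≠ 0 ∧
      ∀ m, dt (cr (row q k) (row q l)) (row q m) = 0 ∨
        dt (cr (row q k) (row q l)) (row q m) = det3 q.1 q.2.1 q.2.2 := by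
  rw [Ne, cr_eq_zero_iff] at h
  by_cases h0 : q.1 1 * q.2.1 2 - q.1 2 * q.2.1 1 = 0
  · by_cases h1 : q.1 2 * q.2.1 0 - q.1 0 * q.2.1 2 = 0
    · have h2 : q.1 0 * q.2.1 1 - q.1 1 * q.2.1 0 ≠ 0 := fun h2 => h ⟨h0, h1, h2⟩
      refine ⟨0, 1, fun hc => h2 ?_, fun m => ?_⟩
      · have := congrFun hc 2
        simp [row] at this
        linarith
      · fin_cases m
        · exact Or.inl (dt_cr_left _ _)
        · exact Or.inl (dt_cr_right _ _)
        · right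
          simp [row, dt, det3]
          ring
    · refine ⟨2, 0, fun hc => h1 ?_, fun m => ?_⟩
      · have := congrFun hc 2
        simp [row] at this
        linarith
      · fin_cases m
        · exact Or.inl (dt_cr_right _ _)
        · right
          simp [row, dt, det3]
          ring
        · exact Or.inl (dt_cr_left _ _)
  · refine ⟨1, 2, fun hc => h0 ?_, fun m => ?_⟩
    · have := congrFun hc 2
      simp [row] at this
      linarith
    · fin_cases m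
      · right
        simp [row, dt, det3]
        ring
      · exact Or.inl (dt_cr_left _ _)
      · exact Or.inl (dt_cr_right _ _)

lemma rel_iff {v : Z3} {q : Z3 × Z3 × Z3} : Rel v q ↔ ∀ k, dt v (row q k) = 0 := Iff.rfl

lemma exists_rel {H : ℕ} {q : Z3 × Z3 × Z3} (hq : q ∈ cube3 H) (h : cr q.1 q.2.1 ≠ 0)
    (hd : det3 q.1 q.2.1 q.2.2 = 0) : ∃ v, Prim v ∧ nrm v ≤ 8 * H ^ 2 ∧ Rel v q := by
  obtain ⟨k, l, hne, hm⟩ := exists_rows h
  obtain ⟨g, v, hg, hv, he⟩ := exists_prim hne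
  refine ⟨v, hv, (nrm_le_of_smul hg he).trans (nrm_cr_cube (row_mem hq k) (row_mem hq l)), ?_⟩
  rw [rel_iff]
  intro m
  have : dt (cr (row q k) (row q l)) (row q m) = 0 := by
    rcases hm m with h1 | h1
    · exact h1
    · rw [h1, hd]
  rw [he, dt_smul] at this
  exact (mul_eq_zero.1 this).resolve_left hg

lemma rel_fiber {H : ℕ} (m : ℕ) (hm : 1 ≤ m) {v : Z3} (hv : Prim v) (T : Finset (Z3 × Z3 × Z3))
    (hT : ∀ q ∈ T, q ∈ cube3 H ∧ cr q.1 q.2.1 ≠ 0 ∧ Rel v q ∧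
      ∀ k, (m : ℤ) ∣ q.1 k - q.2.1 k ∧ (m : ℤ) ∣ q.2.1 k - q.2.2 k) :
    (T.card : ℝ) ≤ (72 * (H : ℝ) ^ 2 / m) ^ 3 * (1 / (nrm v : ℝ) ^ 3) := by
  classical
  have hn : (0 : ℝ) < nrm v := by exact_mod_cast nrm_pos hv.ne_zero
  rcases T.eq_empty_or_nonempty with rfl | ⟨q0, hq0⟩
  · simp only [card_empty, Nat.cast_zero]; positivity
  set S := (cube H).filter
    (fun w => dt v w = 0 ∧ (m : ℤ) ∣ w 0 - w 1 ∧ (m : ℤ) ∣ w 1 - w 2) with hS
  have hrow : ∀ q ∈ T, ∀ k, row q k ∈ S := by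
    intro q hq k
    obtain ⟨a1, _, a3, a4⟩ := hT q hq
    exact mem_filter.2 ⟨row_mem a1 k, a3 k, (a4 k).1, (a4 k).2⟩
  obtain ⟨k, l, hne, _⟩ := exists_rows (hT q0 hq0).2.1
  have hSc := plane_bound hv m hm (row q0 k) (row q0 l) (row_mem (hT q0 hq0).1 k)
    (row_mem (hT q0 hq0).1 l) hne (mem_filter.1 (hrow q0 hq0 k)).2 (mem_filter.1 (hrow q0 hq0 l)).2
    S (filter_subset _ _) (by
      intro x hx y hy
      obtain ⟨_, a1, a2, a3⟩ := mem_filter.1 hx
      obtain ⟨_, b1, b2, b3⟩ := mem_filter.1 hy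
      refine ⟨by rw [dt_sub, a1, b1, sub_self], ?_, ?_⟩
      · have := dvd_sub a2 b2
        simp only [Pi.sub_apply]
        rwa [show x 0 - y 0 - (x 1 - y 1) = x 0 - x 1 - (y 0 - y 1) by ring]
      · have := dvd_sub a3 b3
        simp only [Pi.sub_apply]
        rwa [show x 1 - y 1 - (x 2 - y 2) = x 1 - x 2 - (y 1 - y 2) by ring])
  have hcard : T.card ≤ (S ×ˢ S ×ˢ S).card := by
    apply card_le_card_of_injOn (fun q => (row q 0, row q 1, row q 2))
    · intro q hq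
      rw [mem_coe, mem_product, mem_product]
      exact ⟨hrow q hq 0, hrow q hq 1, hrow q hq 2⟩
    · intro q _ q' _ he
      simp only [Prod.mk.injEq] at he
      obtain ⟨e0, e1, e2⟩ := he
      refine Prod.ext (vec_ext (congrFun e0 0) (congrFun e1 0) (congrFun e2 0))
        (Prod.ext (vec_ext (congrFun e0 1) (congrFun e1 1) (congrFun e2 1))
          (vec_ext (congrFun e0 2) (congrFun e1 2) (congrFun e2 2)))
  rw [card_product, card_product] at hcard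
  have h2 : (T.card : ℝ) ≤ (S.card : ℝ) * (S.card * S.card) := by exact_mod_cast hcard
  set A : ℝ := 72 * (H : ℝ) ^ 2 / m / nrm v with hA
  have hA0 : 0 ≤ A := by positivity
  calc (T.card : ℝ) ≤ _ := h2
    _ ≤ A * (A * A) := by gcongr
    _ = _ := by rw [hA]; field_simp

theorem count_rel (H m : ℕ) (hm : 1 ≤ m) (Cl : Z3 → Prop) (y0 : ℕ) (c : ℝ) (hc : 0 ≤ c)
    (hcount : ∀ y : ℕ, y0 ≤ 3 * y → 1 ≤ y → ∀ V : Finset Z3, (∀ v ∈ V, nrm v ≤ y ∧ Cl v) →
      (V.card : ℝ) ≤ c * (y : ℝ) ^ 3)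
    (T : Finset (Z3 × Z3 × Z3))
    (hT : ∀ q ∈ T, q ∈ cube3 H ∧ cr q.1 q.2.1 ≠ 0 ∧ det3 q.1 q.2.1 q.2.2 = 0 ∧
      (∀ k, (m : ℤ) ∣ q.1 k - q.2.1 k ∧ (m : ℤ) ∣ q.2.1 k - q.2.2 k) ∧
      ∀ v, Prim v → Rel v q → Cl v ∧ y0 ≤ 3 * nrm v) :
    (T.card : ℝ) ≤ (72 * (H : ℝ) ^ 2 / m) ^ 3 * (8 * c * (ell H : ℝ)) := by
  classical
  set V := (ball (8 * H ^ 2)).filter (fun v => Prim v ∧ Cl v ∧ y0 ≤ 3 * nrm v) with hV
  have h1 := cover_bound T V (fun v => T.filter (fun q => Rel v q))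
    ((72 * (H : ℝ) ^ 2 / m) ^ 3)
    (by
      intro q hq
      obtain ⟨a1, a2, a3, _, a5⟩ := hT q hq
      obtain ⟨v, hv, hn, hr⟩ := exists_rel a1 a2 a3
      exact ⟨v, mem_filter.2 ⟨mem_ball.2 hn, hv, a5 v hv hr⟩, mem_filter.2 ⟨hq, hr⟩⟩)
    (by
      intro v hv
      apply rel_fiber m hm (mem_filter.1 hv).2.1
      intro q hq
      rw [mem_filter] at hq
      obtain ⟨a1, a2, _, a4, _⟩ := hT q hq.1
      exact ⟨a1, a2, hq.2, a4⟩)
  refine h1.trans (mul_le_mul_of_nonneg_left ?_ (by positivity))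
  apply dyadic_sum V y0 (8 * H ^ 2) c hc
  · intro v hv
    rw [mem_filter] at hv
    exact ⟨hv.2.2.2, nrm_pos hv.2.1.ne_zero, mem_ball.1 hv.1⟩
  · intro y hy0 hy
    apply hcount y hy0 hy
    intro v hv
    rw [mem_filter] at hv
    exact ⟨hv.2, (mem_filter.1 hv.1).2.2.1⟩

end Vale.Agent.P036
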