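import Vale.Agent.P036.Basic

namespace Vale.Agent.P036

open Finset Matrix

section parab
variable {F : Type*} [Field F]

/-- the point x lies on the paraboloid with parameters w -/
def onP (D : F) (w : F × F × F × F) (x : Fin 3 → F) : Prop :=
  x 2 = w.1 * (x 0 ^ 2 - D * x 1 ^ 2) + w.2.1 + w.2.2.1 * x 0 + w.2.2.2 * x 1

lemma aniso {D : F} (hD : ¬ IsSquare D) {s t : F} (h : s ^ 2 - D * t ^ 2 = 0) : s = 0 ∧ t = 0 := by
  by_cases ht : t = 0
  · subst ht
    refine ⟨?_, rfl⟩
    have : s ^ 2 = 0 := by linear_combination h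
    exact pow_eq_zero_iff (two_ne_zero) |>.1 this
  · exfalso
    apply hD
    refine ⟨s / t, ?_⟩
    field_simp
    linear_combination -h

lemma parab_no_three {D : F} (hD : ¬ IsSquare D) {w : F × F × F × F} (hw : w.1 ≠ 0)
    {x y z : Fin 3 → F} (hx : onP D w x) (hy : onP D w y) (hz : onP D w z)
    (hxy : x ≠ y) (hxz : x ≠ z) (hyz : y ≠ z) {a b c : F} (hs : a + b + c = 0)
    (hr : ∀ k, a * x k + b * y k + c * z k = 0) (hne : ¬ (a = 0 ∧ b = 0 ∧ c = 0)) : False := by
  have ha : a ≠ 0 := by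
    intro h
    have hb : b ≠ 0 := by
      intro h'
      exact hne ⟨h, h', by linear_combination hs - h - h'⟩
    apply hyz
    funext k
    apply mul_left_cancel₀ hb
    linear_combination hr k - (x k - z k) * h - z k * hs
  have hb : b ≠ 0 := by
    intro h
    apply hxz
    funext k
    apply mul_left_cancel₀ ha
    linear_combination hr k - (y k - z k) * h - z k * hs
  have hc : c ≠ 0 := by
    intro h
    apply hxy
    funext k
    apply mul_left_cancel₀ ha
    linear_combination hr k - (z k - y k) * h - y k * hs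
  unfold onP at hx hy hz
  have r0 := hr 0
  have r1 := hr 1
  have r2 := hr 2
  have hN : w.1 * (a * (x 0 ^ 2 - D * x 1 ^ 2) + b * (y 0 ^ 2 - D * y 1 ^ 2) +
      c * (z 0 ^ 2 - D * z 1 ^ 2)) = 0 := by
    linear_combination r2 - a * hx - b * hy - c * hz - w.2.1 * hs - w.2.2.1 * r0 - w.2.2.2 * r1
  have hE := (mul_eq_zero.1 hN).resolve_left hw
  have key : a * b * ((y 0 - x 0) ^ 2 - D * (y 1 - x 1) ^ 2) = 0 := by
    linear_combination (-c) * hE + (c * z 0 - a * x 0 - b * y 0) * r0
      - D * (c * z 1 - a * x 1 - b * y 1) * r1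
      + ((a * x 0 ^ 2 + b * y 0 ^ 2) - D * (a * x 1 ^ 2 + b * y 1 ^ 2)) * hs
  have k2 := (mul_eq_zero.1 key).resolve_left (mul_ne_zero ha hb)
  obtain ⟨e0, e1⟩ := aniso hD k2
  apply hxy
  have e0' : x 0 = y 0 := by linear_combination -e0
  have e1' : x 1 = y 1 := by linear_combination -e1
  refine vec_ext e0' e1' ?_
  rw [hx, hy, e0', e1']

lemma onP_proj_ne {D : F} {w : F × F × F × F} {x y : Fin 3 → F} (hx : onP D w x) (hy : onP D w y)
    (hxy : x ≠ y) : x 0 ≠ y 0 ∨ x 1 ≠ y 1 := by
  by_contra hc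
  push Not at hc
  apply hxy
  refine vec_ext hc.1 hc.2 ?_
  unfold onP at hx hy
  rw [hx, hy, hc.1, hc.2]

variable [Fintype F]

lemma card_onP_one [DecidableEq F] (D : F) (x : Fin 3 → F) (S : Finset (F × F × F × F))
    (hS : ∀ w : F × F × F × F, w.1 ≠ 0 → onP D w x → w ∈ S) :
    (Fintype.card F - 1) * Fintype.card F ^ 2 ≤ S.card := by
  have : ((univ.erase (0 : F)) ×ˢ (univ : Finset F) ×ˢ (univ : Finset F)).card ≤ S.card := by
    apply card_le_card_of_injOn (fun t : F × F × F => (t.1,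
      x 2 - t.1 * (x 0 ^ 2 - D * x 1 ^ 2) - t.2.1 * x 0 - t.2.2 * x 1, t.2.1, t.2.2))
    · intro t ht
      rw [mem_coe, mem_product, mem_erase] at ht
      apply hS
      · exact ht.1.1
      · unfold onP
        ring
    · intro t _ t' _ he
      simp only [Prod.mk.injEq] at he
      exact Prod.ext he.1 (Prod.ext he.2.2.1 he.2.2.2)
  rw [card_product, card_product, card_erase_of_mem (mem_univ _), card_univ] at this
  rw [sq]
  exact this

lemma card_onP_two {D : F} {x y : Fin 3 → F} (hxy : x ≠ y) (S : Finset (F × F × F × F))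
    (hS : ∀ w ∈ S, onP D w x ∧ onP D w y) : S.card ≤ Fintype.card F ^ 2 := by
  classical
  rcases S.eq_empty_or_nonempty with rfl | ⟨w0, hw0⟩
  · simp
  have hc : ((univ : Finset F) ×ˢ (univ : Finset F)).card = Fintype.card F ^ 2 := by
    rw [card_product, card_univ, sq]
  rw [← hc]
  rcases onP_proj_ne (hS w0 hw0).1 (hS w0 hw0).2 hxy with h | h
  · apply card_le_card_of_injOn (fun w : F × F × F × F => (w.1, w.2.2.2))
    · intro w _
      simp
    · intro w hw w' hw' he
      simp only [Prod.mk.injEq] at he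
      obtain ⟨e1, e2⟩ := he
      obtain ⟨a1, a2⟩ := hS w hw
      obtain ⟨b1, b2⟩ := hS w' hw'
      unfold onP at a1 a2 b1 b2
      rw [e1, e2] at a1 a2
      have e3 : w.2.2.1 = w'.2.2.1 := by
        apply mul_left_cancel₀ (sub_ne_zero.2 h)
        linear_combination b1 - a1 - b2 + a2
      rw [e3] at a1
      have e4 : w.2.1 = w'.2.1 := by linear_combination b1 - a1
      exact Prod.ext e1 (Prod.ext e4 (Prod.ext e3 e2))
  · apply card_le_card_of_injOn (fun w : F × F × F × F => (w.1, w.2.2.1))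
    · intro w _
      simp
    · intro w hw w' hw' he
      simp only [Prod.mk.injEq] at he
      obtain ⟨e1, e2⟩ := he
      obtain ⟨a1, a2⟩ := hS w hw
      obtain ⟨b1, b2⟩ := hS w' hw'
      unfold onP at a1 a2 b1 b2
      rw [e1, e2] at a1 a2
      have e3 : w.2.2.2 = w'.2.2.2 := by
        apply mul_left_cancel₀ (sub_ne_zero.2 h)
        linear_combination b1 - a1 - b2 + a2
      rw [e3] at a1
      have e4 : w.2.1 = w'.2.1 := by linear_combination b1 - a1
      exact Prod.ext e1 (Prod.ext e4 (Prod.ext e2 e3))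

lemma card_onP_three {D : F} (hD : ¬ IsSquare D) {x y z : Fin 3 → F} (hxy : x ≠ y) (hxz : x ≠ z)
    (hyz : y ≠ z) (S : Finset (F × F × F × F))
    (hS : ∀ w ∈ S, onP D w x ∧ onP D w y ∧ onP D w z) : S.card ≤ Fintype.card F := by
  classical
  rcases S.eq_empty_or_nonempty with rfl | ⟨w0, hw0⟩
  · simp
  rw [← card_univ]
  obtain ⟨o1, o2, o3⟩ := hS w0 hw0
  by_cases hδ : (y 0 - x 0) * (z 1 - x 1) - (y 1 - x 1) * (z 0 - x 0) = 0
  · have hc : ∀ w ∈ S, ∀ w' ∈ S, w.1 = w'.1 := by
      intro w hw w' hw'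
      by_contra hne
      obtain ⟨a1, a2, a3⟩ := hS w hw
      obtain ⟨b1, b2, b3⟩ := hS w' hw'
      unfold onP at a1 a2 a3 b1 b2 b3
      have pne : ∀ {u v : Fin 3 → F}, (u 0 ≠ v 0 ∨ u 1 ≠ v 1) →
          (![u 0, u 1, 0] : Fin 3 → F) ≠ ![v 0, v 1, 0] := by
        intro u v huv he
        rcases huv with h | h
        · exact h (congrFun he 0)
        · exact h (congrFun he 1)
      have q1 : onP D (w.1 - w'.1, w.2.1 - w'.2.1, w.2.2.1 - w'.2.2.1, w.2.2.2 - w'.2.2.2)
          ![x 0, x 1, 0] := by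
        show (0 : F) = (w.1 - w'.1) * (x 0 ^ 2 - D * x 1 ^ 2) + (w.2.1 - w'.2.1) +
          (w.2.2.1 - w'.2.2.1) * x 0 + (w.2.2.2 - w'.2.2.2) * x 1
        linear_combination a1 - b1
      have q2 : onP D (w.1 - w'.1, w.2.1 - w'.2.1, w.2.2.1 - w'.2.2.1, w.2.2.2 - w'.2.2.2)
          ![y 0, y 1, 0] := by
        show (0 : F) = (w.1 - w'.1) * (y 0 ^ 2 - D * y 1 ^ 2) + (w.2.1 - w'.2.1) +
          (w.2.2.1 - w'.2.2.1) * y 0 + (w.2.2.2 - w'.2.2.2) * y 1
        linear_combination a2 - b2
      have q3 : onP D (w.1 - w'.1, w.2.1 - w'.2.1, w.2.2.1 - w'.2.2.1, w.2.2.2 - w'.2.2.2)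
          ![z 0, z 1, 0] := by
        show (0 : F) = (w.1 - w'.1) * (z 0 ^ 2 - D * z 1 ^ 2) + (w.2.1 - w'.2.1) +
          (w.2.2.1 - w'.2.2.1) * z 0 + (w.2.2.2 - w'.2.2.2) * z 1
        linear_combination a3 - b3
      have n1 := pne (onP_proj_ne o1 o2 hxy)
      have n2 := pne (onP_proj_ne o1 o3 hxz)
      have n3 := pne (onP_proj_ne o2 o3 hyz)
      rcases onP_proj_ne o1 o2 hxy with h | h
      · refine parab_no_three hD (sub_ne_zero.2 hne) q1 q2 q3 n1 n2 n3 (a := y 0 - z 0)
          (b := z 0 - x 0) (c := x 0 - y 0) (by ring) ?_ (fun hh => h (by linear_combination hh.2.2))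
        intro k
        fin_cases k
        · show (y 0 - z 0) * x 0 + (z 0 - x 0) * y 0 + (x 0 - y 0) * z 0 = 0
          ring
        · show (y 0 - z 0) * x 1 + (z 0 - x 0) * y 1 + (x 0 - y 0) * z 1 = 0
          linear_combination -hδ
        · show (y 0 - z 0) * 0 + (z 0 - x 0) * 0 + (x 0 - y 0) * 0 = 0
          ring
      · refine parab_no_three hD (sub_ne_zero.2 hne) q1 q2 q3 n1 n2 n3 (a := y 1 - z 1)
          (b := z 1 - x 1) (c := x 1 - y 1) (by ring) ?_ (fun hh => h (by linear_combination hh.2.2))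
        intro k
        fin_cases k
        · show (y 1 - z 1) * x 0 + (z 1 - x 1) * y 0 + (x 1 - y 1) * z 0 = 0
          linear_combination hδ
        · show (y 1 - z 1) * x 1 + (z 1 - x 1) * y 1 + (x 1 - y 1) * z 1 = 0
          ring
        · show (y 1 - z 1) * 0 + (z 1 - x 1) * 0 + (x 1 - y 1) * 0 = 0
          ring
    rcases onP_proj_ne o1 o2 hxy with h | h
    · apply card_le_card_of_injOn (fun w : F × F × F × F => w.2.2.2)
      · intro w _
        simp
      · intro w hw w' hw' e2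
        have e1 := hc w hw w' hw'
        simp only at e2
        obtain ⟨a1, a2, _⟩ := hS w hw
        obtain ⟨b1, b2, _⟩ := hS w' hw'
        unfold onP at a1 a2 b1 b2
        rw [e1, e2] at a1 a2
        have e3 : w.2.2.1 = w'.2.2.1 := by
          apply mul_left_cancel₀ (sub_ne_zero.2 h)
          linear_combination b1 - a1 - b2 + a2
        rw [e3] at a1
        have e4 : w.2.1 = w'.2.1 := by linear_combination b1 - a1
        exact Prod.ext e1 (Prod.ext e4 (Prod.ext e3 e2))
    · apply card_le_card_of_injOn (fun w : F × F × F × F => w.2.2.1)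
      · intro w _
        simp
      · intro w hw w' hw' e2
        have e1 := hc w hw w' hw'
        simp only at e2
        obtain ⟨a1, a2, _⟩ := hS w hw
        obtain ⟨b1, b2, _⟩ := hS w' hw'
        unfold onP at a1 a2 b1 b2
        rw [e1, e2] at a1 a2
        have e3 : w.2.2.2 = w'.2.2.2 := by
          apply mul_left_cancel₀ (sub_ne_zero.2 h)
          linear_combination b1 - a1 - b2 + a2
        rw [e3] at a1
        have e4 : w.2.1 = w'.2.1 := by linear_combination b1 - a1
        exact Prod.ext e1 (Prod.ext e4 (Prod.ext e2 e3))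
  · apply card_le_card_of_injOn (fun w : F × F × F × F => w.1)
    · intro w _
      simp
    · intro w hw w' hw' e1
      simp only at e1
      obtain ⟨a1, a2, a3⟩ := hS w hw
      obtain ⟨b1, b2, b3⟩ := hS w' hw'
      unfold onP at a1 a2 a3 b1 b2 b3
      rw [e1] at a1 a2 a3
      have e2 : w.2.2.1 = w'.2.2.1 := by
        apply mul_left_cancel₀ hδ
        linear_combination (z 1 - x 1) * (b2 - a2 - b1 + a1) - (y 1 - x 1) * (b3 - a3 - b1 + a1)
      have e3 : w.2.2.2 = w'.2.2.2 := by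
        apply mul_left_cancel₀ hδ
        linear_combination (y 0 - x 0) * (b3 - a3 - b1 + a1) - (z 0 - x 0) * (b2 - a2 - b1 + a1)
      rw [e2, e3] at a1
      have e4 : w.2.1 = w'.2.1 := by linear_combination b1 - a1
      exact Prod.ext e1 (Prod.ext e4 (Prod.ext e2 e3))

end parab

section grp
variable {F : Type*} [Field F]

lemma mulVec_eq3 (g : Matrix (Fin 3) (Fin 3) F) (a : Fin 3 → F) (k : Fin 3) :
    (g *ᵥ a) k = dt (g k) a := by
  simp [Matrix.mulVec, dotProduct, Fin.sum_univ_three, dt]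

lemma det3_mulVec (g : Matrix (Fin 3) (Fin 3) F) (a b c : Fin 3 → F) :
    det3 (g *ᵥ a) (g *ᵥ b) (g *ᵥ c) = g.det * det3 a b c := by
  rw [det3_eq, det3_eq, Matrix.det_fin_three]
  simp only [mulVec_eq3, dt]
  ring

lemma cramer3 {d a b c : Fin 3 → F} (hD : det3 a b c ≠ 0) (ha : dt d a = 0) (hb : dt d b = 0)
    (hc : dt d c = 0) : d = 0 := by
  rw [det3_eq] at hD
  unfold dt at ha hb hc
  apply vec_ext
  · apply mul_left_cancel₀ hD
    simp only [Pi.zero_apply]
    linear_combination (b 1 * c 2 - b 2 * c 1) * ha + (c 1 * a 2 - c 2 * a 1) * hb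
      + (a 1 * b 2 - a 2 * b 1) * hc
  · apply mul_left_cancel₀ hD
    simp only [Pi.zero_apply]
    linear_combination (b 2 * c 0 - b 0 * c 2) * ha + (c 2 * a 0 - c 0 * a 2) * hb
      + (a 2 * b 0 - a 0 * b 2) * hc
  · apply mul_left_cancel₀ hD
    simp only [Pi.zero_apply]
    linear_combination (b 0 * c 1 - b 1 * c 0) * ha + (c 0 * a 1 - c 1 * a 0) * hb
      + (a 0 * b 1 - a 1 * b 0) * hc

lemma mat_unique {g g' : Matrix (Fin 3) (Fin 3) F} {a b c : Fin 3 → F} (hD : det3 a b c ≠ 0)
    (ha : g *ᵥ a = g' *ᵥ a) (hb : g *ᵥ b = g' *ᵥ b) (hc : g *ᵥ c = g' *ᵥ c) : g = g' := by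
  have key : ∀ k, g k - g' k = 0 := by
    intro k
    have e : ∀ u : Fin 3 → F, g *ᵥ u = g' *ᵥ u → dt (g k - g' k) u = 0 := by
      intro u hu
      have := congrFun hu k
      rw [mulVec_eq3, mulVec_eq3] at this
      unfold dt at this ⊢
      simp only [Pi.sub_apply]
      linear_combination this
    exact cramer3 hD (e a ha) (e b hb) (e c hc)
  ext i j
  have := congrFun (key i) j
  simpa [sub_eq_zero] using this

lemma mulVec_inj {g : Matrix (Fin 3) (Fin 3) F} (hg : g.det = 1) {u v : Fin 3 → F}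
    (h : g *ᵥ u = g *ᵥ v) : u = v := by
  have h1 : g *ᵥ (u - v) = 0 := by rw [Matrix.mulVec_sub, h, sub_self]
  have := Matrix.eq_zero_of_mulVec_eq_zero (by rw [hg]; exact one_ne_zero) h1
  exact sub_eq_zero.1 this

lemma exists_third {a b : Fin 3 → F} (h : cr a b ≠ 0) : ∃ c, det3 a b c ≠ 0 := by
  by_contra hc
  push Not at hc
  apply h
  have h0 := hc ![1, 0, 0]
  have h1 := hc ![0, 1, 0]
  have h2 := hc ![0, 0, 1]
  simp [det3_eq] at h0 h1 h2
  rw [cr_eq_zero_iff]
  exact ⟨h0, h1, h2⟩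

lemma exists_second {a : Fin 3 → F} (h : a ≠ 0) : ∃ b, cr a b ≠ 0 := by
  by_contra hc
  push Not at hc
  apply h
  have h0 := (cr_eq_zero_iff _ _).1 (hc ![1, 0, 0])
  have h1 := (cr_eq_zero_iff _ _).1 (hc ![0, 1, 0])
  simp at h0 h1
  exact vec_ext h1.2 h0.2 h0.1

variable [Fintype F]

lemma card_plane {n : Fin 3 → F} {D : F} (hD : D ≠ 0) (S : Finset (Fin 3 → F))
    (hS : ∀ w ∈ S, dt n w = D) : S.card ≤ Fintype.card F ^ 2 := by
  classical
  rcases S.eq_empty_or_nonempty with rfl | ⟨w0, hw0⟩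
  · simp
  have hc : ((univ : Finset F) ×ˢ (univ : Finset F)).card = Fintype.card F ^ 2 := by
    rw [card_product, card_univ, sq]
  rw [← hc]
  by_cases h0 : n 0 = 0
  · by_cases h1 : n 1 = 0
    · have h2 : n 2 ≠ 0 := by
        intro h2
        apply hD
        rw [← hS w0 hw0, dt, h0, h1, h2]; ring
      apply card_le_card_of_injOn (fun w : Fin 3 → F => (w 0, w 1))
      · intro w _
        simp
      · intro w hw w' hw' he
        simp only [Prod.mk.injEq] at he
        have a := hS w hw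
        have b := hS w' hw'
        unfold dt at a b
        refine vec_ext he.1 he.2 (mul_left_cancel₀ h2 ?_)
        rw [he.1, he.2] at a
        linear_combination a - b
    · apply card_le_card_of_injOn (fun w : Fin 3 → F => (w 0, w 2))
      · intro w _
        simp
      · intro w hw w' hw' he
        simp only [Prod.mk.injEq] at he
        have a := hS w hw
        have b := hS w' hw'
        unfold dt at a b
        refine vec_ext he.1 (mul_left_cancel₀ h1 ?_) he.2
        rw [he.1, he.2] at a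
        linear_combination a - b
  · apply card_le_card_of_injOn (fun w : Fin 3 → F => (w 1, w 2))
    · intro w _
      simp
    · intro w hw w' hw' he
      simp only [Prod.mk.injEq] at he
      have a := hS w hw
      have b := hS w' hw'
      unfold dt at a b
      refine vec_ext (mul_left_cancel₀ h0 ?_) he.1 he.2
      rw [he.1, he.2] at a
      linear_combination a - b

omit [Fintype F] in
lemma card_G_three {a b c : Fin 3 → F} (hD : det3 a b c ≠ 0) (x y z : Fin 3 → F)
    (S : Finset (Matrix (Fin 3) (Fin 3) F)) (hS : ∀ g ∈ S, g *ᵥ a = x ∧ g *ᵥ b = y ∧ g *ᵥ c = z) :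
    S.card ≤ 1 := by
  rw [card_le_one]
  intro g hg g' hg'
  obtain ⟨a1, a2, a3⟩ := hS g hg
  obtain ⟨b1, b2, b3⟩ := hS g' hg'
  exact mat_unique hD (a1.trans b1.symm) (a2.trans b2.symm) (a3.trans b3.symm)

lemma card_G_two {a b : Fin 3 → F} (h : cr a b ≠ 0) (x y : Fin 3 → F)
    (S : Finset (Matrix (Fin 3) (Fin 3) F)) (hS : ∀ g ∈ S, g.det = 1 ∧ g *ᵥ a = x ∧ g *ᵥ b = y) :
    S.card ≤ Fintype.card F ^ 2 := by
  classical
  obtain ⟨c, hc⟩ := exists_third h
  have h1 : S.card = (S.image (fun g => g *ᵥ c)).card := by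
    symm
    apply card_image_of_injOn
    intro g hg g' hg' he
    obtain ⟨_, a1, a2⟩ := hS g hg
    obtain ⟨_, b1, b2⟩ := hS g' hg'
    exact mat_unique hc (a1.trans b1.symm) (a2.trans b2.symm) he
  rw [h1]
  apply card_plane (n := cr x y) hc
  intro w hw
  obtain ⟨g, hg, rfl⟩ := mem_image.1 hw
  obtain ⟨a0, a1, a2⟩ := hS g hg
  have := det3_mulVec g a b c
  rw [a0, a1, a2, one_mul] at this
  exact this

lemma card_G_one {a : Fin 3 → F} (h : a ≠ 0) (x : Fin 3 → F)
    (S : Finset (Matrix (Fin 3) (Fin 3) F)) (hS : ∀ g ∈ S, g.det = 1 ∧ g *ᵥ a = x) :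
    S.card ≤ Fintype.card F ^ 5 := by
  classical
  obtain ⟨b, hb⟩ := exists_second h
  have h1 := card_le_mul_card_image_of_maps_to (s := S) (t := (univ : Finset (Fin 3 → F)))
    (f := fun g => g *ᵥ b) (fun _ _ => mem_univ _) (Fintype.card F ^ 2) (by
      intro y _
      apply card_G_two hb x y
      intro g hg
      rw [mem_filter] at hg
      exact ⟨(hS g hg.1).1, (hS g hg.1).2, hg.2⟩)
  rw [card_univ, Fintype.card_fun, Fintype.card_fin] at h1
  calc S.card ≤ _ := h1
    _ = _ := by ring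

lemma card_G_lower [DecidableEq F] (G : Finset (Matrix (Fin 3) (Fin 3) F))
    (hG : ∀ g : Matrix (Fin 3) (Fin 3) F, g.det = 1 → g ∈ G) :
    (Fintype.card F - 1) ^ 2 * Fintype.card F ^ 6 ≤ G.card := by
  have : (((univ.erase (0 : F)) ×ˢ (univ.erase (0 : F))) ×ˢ
      (univ : Finset (F × F × F × F × F × F))).card ≤ G.card := by
    apply card_le_card_of_injOn (fun t : (F × F) × (F × F × F × F × F × F) =>
      (!![t.1.1, t.2.1, t.2.2.1;
          t.2.2.2.1, (t.1.2 + t.2.1 * t.2.2.2.1) / t.1.1, t.2.2.2.2.1;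
          t.2.2.2.2.2.1, t.2.2.2.2.2.2,
          (1 + t.1.1 * t.2.2.2.2.1 * t.2.2.2.2.2.2 - t.2.1 * t.2.2.2.2.1 * t.2.2.2.2.2.1
            - t.2.2.1 * t.2.2.2.1 * t.2.2.2.2.2.2
            + t.2.2.1 * ((t.1.2 + t.2.1 * t.2.2.2.1) / t.1.1) * t.2.2.2.2.2.1) / t.1.2] :
        Matrix (Fin 3) (Fin 3) F))
    · rintro ⟨⟨al, m⟩, b, c, d, f, g, h⟩ ht
      rw [mem_coe, mem_product, mem_product, mem_erase, mem_erase] at ht
      have h1 : al ≠ 0 := ht.1.1.1
      have h2 : m ≠ 0 := ht.1.2.1
      apply hG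
      rw [Matrix.det_fin_three]
      simp
      field_simp
      ring
    · rintro ⟨⟨al, m⟩, b, c, d, f, g, h⟩ ht ⟨⟨al', m'⟩, b', c', d', f', g', h'⟩ ht' he
      rw [mem_coe, mem_product, mem_product, mem_erase, mem_erase] at ht
      have h1 : al ≠ 0 := ht.1.1.1
      have e00 : al = al' := congrFun (congrFun he 0) 0
      have e01 : b = b' := congrFun (congrFun he 0) 1
      have e02 : c = c' := congrFun (congrFun he 0) 2
      have e10 : d = d' := congrFun (congrFun he 1) 0
      have e11 : (m + b * d) / al = (m' + b' * d') / al' := congrFun (congrFun he 1) 1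
      have e12 : f = f' := congrFun (congrFun he 1) 2
      have e20 : g = g' := congrFun (congrFun he 2) 0
      have e21 : h = h' := congrFun (congrFun he 2) 1
      subst e00 e01 e02 e10 e12 e20 e21
      have : m = m' := by
        rw [div_left_inj' h1] at e11
        linear_combination e11
      subst this
      rfl
  rw [card_product, card_product, card_erase_of_mem (mem_univ _), card_univ, card_univ] at this
  simp only [Fintype.card_prod] at this
  calc _ = _ := by ring
    _ ≤ _ := this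

end grp

end Vale.Agent.P036
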