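import Vale.Agent.P036.Count
import Vale.Agent.P036.FF

namespace Vale.Agent.P036

open Finset Matrix

/-- reduction of an integer vector -/
def red (h : ℕ) (x : Z3) : Fin 3 → ZMod h := fun k => (x k : ZMod h)

lemma red_det3 (h : ℕ) (x y z : Z3) :
    ((det3 x y z : ℤ) : ZMod h) = det3 (red h x) (red h y) (red h z) := by
  simp [det3_eq, red]

/-- g maps the residues a, b, c to the reductions of the triple q -/
def Mt {h : ℕ} (g : Matrix (Fin 3) (Fin 3) (ZMod h)) (a b c : Fin 3 → ZMod h)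
    (q : Z3 × Z3 × Z3) : Prop :=
  g *ᵥ a = red h q.1 ∧ g *ᵥ b = red h q.2.1 ∧ g *ᵥ c = red h q.2.2

/-- the triples that are counted -/
def Nd (H T : ℕ) (q : Z3 × Z3 × Z3) : Prop :=
  q ∈ cube3 H ∧ cr q.1 q.2.1 ≠ 0 ∧ |det3 q.1 q.2.1 q.2.2| ≤ T ∧
    ∀ v, Prim v → Rel v q → v 0 + v 1 + v 2 ≠ 0

/-- linear relation among residues -/
def RelF {F : Type*} [Field F] (v a b c : Fin 3 → F) : Prop :=
  ∀ k, v 0 * a k + v 1 * b k + v 2 * c k = 0

/-- the constant in the counting bounds -/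
def CC : ℕ := 72 ^ 3 * 600

lemma dc {α β : Type*} (A : Finset α) (B : Finset β) (r : α → β → Prop)
    [∀ a b, Decidable (r a b)] :
    ∑ a ∈ A, (B.filter (fun b => r a b)).card = ∑ b ∈ B, (A.filter (fun a => r a b)).card := by
  simp only [card_filter]
  exact sum_comm

lemma sum_filter_le {α β : Type*} (T : Finset α) (G : Finset β) (M : β → α → Prop)
    [∀ a b, Decidable (M a b)] (b : ℝ) (hb0 : 0 ≤ b)
    (hb : ∀ q, ((G.filter (fun g => M g q)).card : ℝ) ≤ b) (N : ℝ)
    (hN : ∀ T' : Finset α, (∀ q ∈ T', q ∈ T ∧ ∃ g ∈ G, M g q) → (T'.card : ℝ) ≤ N) :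
    ∑ q ∈ T, ((G.filter (fun g => M g q)).card : ℝ) ≤ b * N := by
  classical
  rw [← sum_filter_add_sum_filter_not T (fun q => ∃ g ∈ G, M g q)]
  have h1 : ∑ q ∈ T.filter (fun q => ¬ ∃ g ∈ G, M g q),
      ((G.filter (fun g => M g q)).card : ℝ) = 0 := by
    apply sum_eq_zero
    intro q hq
    have := (mem_filter.1 hq).2
    rw [Nat.cast_eq_zero, card_eq_zero, filter_eq_empty_iff]
    intro g hg hM
    exact this ⟨g, hg, hM⟩
  rw [h1, add_zero]
  have h2 := sum_le_card_nsmul (T.filter (fun q => ∃ g ∈ G, M g q)) _ b (fun q _ => hb q)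
  rw [nsmul_eq_mul] at h2
  refine h2.trans ?_
  rw [mul_comm]
  exact mul_le_mul_of_nonneg_left (hN _ (fun q hq => mem_filter.1 hq)) hb0

lemma rel_two_ne {v : Z3} {q : Z3 × Z3 × Z3} (hv : Prim v) (hr : Rel v q)
    (hc : cr q.1 q.2.1 ≠ 0) : v 2 ≠ 0 := by
  intro h2
  have r0 := hr 0
  have r1 := hr 1
  have r2 := hr 2
  rw [h2] at r0 r1 r2
  have a0 : v 0 = 0 := by
    by_contra h0
    apply hc
    rw [cr_eq_zero_iff]
    refine ⟨mul_left_cancel₀ h0 ?_, mul_left_cancel₀ h0 ?_, mul_left_cancel₀ h0 ?_⟩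
    · linear_combination q.2.1 2 * r1 - q.2.1 1 * r2
    · linear_combination q.2.1 0 * r2 - q.2.1 2 * r0
    · linear_combination q.2.1 1 * r0 - q.2.1 0 * r1
  have a1 : v 1 = 0 := by
    by_contra h0
    apply hc
    rw [cr_eq_zero_iff]
    refine ⟨mul_left_cancel₀ h0 ?_, mul_left_cancel₀ h0 ?_, mul_left_cancel₀ h0 ?_⟩
    · linear_combination q.1 1 * r2 - q.1 2 * r1
    · linear_combination q.1 2 * r0 - q.1 0 * r2
    · linear_combination q.1 0 * r1 - q.1 1 * r0
  exact hv.ne_zero (vec_ext a0 a1 h2)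

lemma le_three_nrm {h : ℕ} {v : Z3} (hd : (h : ℤ) ∣ v 0 + v 1 + v 2) (hne : v 0 + v 1 + v 2 ≠ 0) :
    h ≤ 3 * nrm v := by
  have h1 := Int.le_of_dvd (abs_pos.2 hne) ((dvd_abs _ _).2 hd)
  have a0 := abs_le.1 (abs_le_nrm v 0)
  have a1 := abs_le.1 (abs_le_nrm v 1)
  have a2 := abs_le.1 (abs_le_nrm v 2)
  have h2 : |v 0 + v 1 + v 2| ≤ 3 * (nrm v : ℤ) := abs_le.2 ⟨by linarith, by linarith⟩
  have h3 : (h : ℤ) ≤ 3 * (nrm v : ℤ) := h1.trans h2
  exact_mod_cast h3

variable {h : ℕ} [Fact h.Prime]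

lemma Mt.det {g : Matrix (Fin 3) (Fin 3) (ZMod h)} (hg : g.det = 1) {a b c : Fin 3 → ZMod h}
    {q : Z3 × Z3 × Z3} (hm : Mt g a b c q) :
    ((det3 q.1 q.2.1 q.2.2 : ℤ) : ZMod h) = det3 a b c := by
  rw [red_det3, ← hm.1, ← hm.2.1, ← hm.2.2, det3_mulVec, hg, one_mul]

lemma Mt.relF {g : Matrix (Fin 3) (Fin 3) (ZMod h)} (hg : g.det = 1) {a b c : Fin 3 → ZMod h}
    {q : Z3 × Z3 × Z3} (hm : Mt g a b c q) {v : Z3} (hr : Rel v q) : RelF (red h v) a b c := by
  have h1 : g *ᵥ (red h v 0 • a + red h v 1 • b + red h v 2 • c) = g *ᵥ 0 := by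
    rw [mulVec_add, mulVec_add, mulVec_smul, mulVec_smul, mulVec_smul, hm.1, hm.2.1, hm.2.2,
      mulVec_zero]
    funext k
    have := congrArg (Int.cast : ℤ → ZMod h) (hr k)
    push_cast at this
    simpa [red] using this
  have h2 := mulVec_inj hg h1
  intro k
  simpa using congrFun h2 k

lemma det_zero_of {T : ℕ} (hT : 2 * T < h) {d : ℤ} (hd : |d| ≤ T) (h0 : (d : ZMod h) = 0) :
    d = 0 := by
  have h1 := (ZMod.intCast_zmod_eq_zero_iff_dvd d h).1 h0
  have h2 : ((2 * T : ℕ) : ℤ) < h := by exact_mod_cast hT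
  push_cast at h2
  exact Int.eq_zero_of_abs_lt_dvd h1 (by linarith [abs_nonneg d])

open Classical in
lemma M1 {H T : ℕ} (hT : 2 * T < h) (TT : Finset (Z3 × Z3 × Z3)) (hTT : ∀ q ∈ TT, Nd H T q)
    (G : Finset (Matrix (Fin 3) (Fin 3) (ZMod h))) (hG : ∀ g ∈ G, g.det = 1)
    {a b c : Fin 3 → ZMod h} (hD : det3 a b c ≠ 0) :
    ∑ q ∈ TT, ((G.filter (fun g => Mt g a b c q)).card : ℝ) ≤ CC * (H : ℝ) ^ 6 * ell H := by
  have := sum_filter_le TT G (fun g q => Mt g a b c q) 1 zero_le_one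
    (fun q => by
      have := card_G_three hD (red h q.1) (red h q.2.1) (red h q.2.2)
        (G.filter (fun g => Mt g a b c q)) (fun g hg => (mem_filter.1 hg).2)
      exact_mod_cast this)
    ((72 * (H : ℝ) ^ 2) ^ 3 * (8 * 27 * (ell H : ℝ)))
    (by
      intro T' hT'
      rcases T'.eq_empty_or_nonempty with rfl | ⟨q0, hq0⟩
      · simp only [card_empty, Nat.cast_zero]; positivity
      apply count_det H (det3 q0.1 q0.2.1 q0.2.2)
      intro q hq
      obtain ⟨a1, g, hg, hm⟩ := hT' q hq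
      obtain ⟨a0, g0, hg0, hm0⟩ := hT' q0 hq0
      obtain ⟨b1, b2, b3, _⟩ := hTT q a1
      obtain ⟨_, _, c3, _⟩ := hTT q0 a0
      refine ⟨b1, b2, ?_⟩
      have e1 := hm.det (hG g hg)
      have e2 := hm0.det (hG g0 hg0)
      have e3 : ((det3 q.1 q.2.1 q.2.2 - det3 q0.1 q0.2.1 q0.2.2 : ℤ) : ZMod h) = 0 := by
        push_cast
        rw [e1, e2, sub_self]
      have h1 := (ZMod.intCast_zmod_eq_zero_iff_dvd _ h).1 e3
      have h2 : ((2 * T : ℕ) : ℤ) < h := by exact_mod_cast hT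
      push_cast at h2
      rw [abs_le] at b3 c3
      have := Int.eq_zero_of_abs_lt_dvd h1 (abs_lt.2 ⟨by linarith, by linarith⟩)
      linarith)
  refine this.trans ?_
  have h1 : (0 : ℝ) ≤ (H : ℝ) ^ 6 * ell H := by positivity
  unfold CC
  push_cast
  nlinarith

open Classical in
lemma M2 {H T : ℕ} (hT : 2 * T < h) (TT : Finset (Z3 × Z3 × Z3)) (hTT : ∀ q ∈ TT, Nd H T q)
    (G : Finset (Matrix (Fin 3) (Fin 3) (ZMod h))) (hG : ∀ g ∈ G, g.det = 1)
    {a b c : Fin 3 → ZMod h} (hD : det3 a b c = 0) (hind : cr a b ≠ 0 ∨ cr a c ≠ 0) (j : Fin 3)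
    (hdet : ∀ v v' : Fin 3 → ZMod h, RelF v a b c → RelF v' a b c → v j = v' j → v = v')
    (hbig : ∀ v : Z3, RelF (red h v) a b c → v 2 ≠ 0 → v 0 + v 1 + v 2 ≠ 0 → h ≤ 3 * nrm v) :
    ∑ q ∈ TT, ((G.filter (fun g => Mt g a b c q)).card : ℝ) ≤ CC * (H : ℝ) ^ 6 * ell H := by
  have hh : 0 < h := (Fact.out : h.Prime).pos
  have hpos : (0 : ℝ) < h := by exact_mod_cast hh
  have := sum_filter_le TT G (fun g q => Mt g a b c q) ((h : ℝ) ^ 2) (by positivity)
    (fun q => by
      have : (G.filter (fun g => Mt g a b c q)).card ≤ Fintype.card (ZMod h) ^ 2 := by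
        rcases hind with h1 | h1
        · exact card_G_two h1 (red h q.1) (red h q.2.1) _
            (fun g hg => ⟨hG g (mem_filter.1 hg).1, (mem_filter.1 hg).2.1, (mem_filter.1 hg).2.2.1⟩)
        · exact card_G_two h1 (red h q.1) (red h q.2.2) _
            (fun g hg => ⟨hG g (mem_filter.1 hg).1, (mem_filter.1 hg).2.1, (mem_filter.1 hg).2.2.2⟩)
      rw [ZMod.card] at this
      exact_mod_cast this)
    ((72 * (H : ℝ) ^ 2 / (1 : ℕ)) ^ 3 * (8 * (75 / (h : ℝ) ^ 2) * (ell H : ℝ)))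
    (by
      intro T' hT'
      apply count_rel H 1 le_rfl (fun v => RelF (red h v) a b c) h _ (by positivity)
      · intro y hy _ V hV
        apply count_class1 hh hy V (fun v hv => (hV v hv).1) j
        intro v hv v' hv' hj i
        have := hdet _ _ (hV v hv).2 (hV v' hv').2 (by simp only [red]; rw [hj])
        have h2 : ((v i - v' i : ℤ) : ZMod h) = 0 := by
          push_cast
          exact sub_eq_zero.2 (congrFun this i)
        exact (ZMod.intCast_zmod_eq_zero_iff_dvd _ h).1 h2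
      · intro q hq
        obtain ⟨a1, g, hg, hm⟩ := hT' q hq
        obtain ⟨b1, b2, b3, b4⟩ := hTT q a1
        refine ⟨b1, b2, det_zero_of hT b3 (by rw [hm.det (hG g hg), hD]), fun k => by simp, ?_⟩
        intro v hv hr
        have hc := hm.relF (hG g hg) hr
        exact ⟨hc, hbig v hc (rel_two_ne hv hr b2) (b4 v hv hr)⟩)
  refine this.trans (le_of_eq ?_)
  unfold CC
  push_cast
  field_simp
  ring

open Classical in
lemma M3 {H T : ℕ} (hT : 2 * T < h) (TT : Finset (Z3 × Z3 × Z3)) (hTT : ∀ q ∈ TT, Nd H T q)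
    (G : Finset (Matrix (Fin 3) (Fin 3) (ZMod h))) (hG : ∀ g ∈ G, g.det = 1)
    {a : Fin 3 → ZMod h} (ha : a ≠ 0) :
    ∑ q ∈ TT, ((G.filter (fun g => Mt g a a a q)).card : ℝ) ≤
      (CC * (H : ℝ) ^ 6 * ell H) * h := by
  have hh : 0 < h := (Fact.out : h.Prime).pos
  have hpos : (0 : ℝ) < h := by exact_mod_cast hh
  have := sum_filter_le TT G (fun g q => Mt g a a a q) ((h : ℝ) ^ 5) (by positivity)
    (fun q => by
      have : (G.filter (fun g => Mt g a a a q)).card ≤ Fintype.card (ZMod h) ^ 5 :=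
        card_G_one ha (red h q.1) _
          (fun g hg => ⟨hG g (mem_filter.1 hg).1, (mem_filter.1 hg).2.1⟩)
      rw [ZMod.card] at this
      exact_mod_cast this)
    ((72 * (H : ℝ) ^ 2 / h) ^ 3 * (8 * (45 / (h : ℝ)) * (ell H : ℝ)))
    (by
      intro T' hT'
      apply count_rel H h hh (fun v => (h : ℤ) ∣ v 0 + v 1 + v 2) h _ (by positivity)
      · intro y hy _ V hV
        exact count_class2 hh hy V (fun v hv => (hV v hv).1) (fun v hv => (hV v hv).2)
      · intro q hq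
        obtain ⟨a1, g, hg, hm⟩ := hT' q hq
        obtain ⟨b1, b2, b3, b4⟩ := hTT q a1
        refine ⟨b1, b2, det_zero_of hT b3 (by
          rw [hm.det (hG g hg), det3_eq]; ring), fun k => ⟨?_, ?_⟩, ?_⟩
        · apply (ZMod.intCast_zmod_eq_zero_iff_dvd _ h).1
          push_cast
          exact sub_eq_zero.2 (congrFun (hm.1.symm.trans hm.2.1) k)
        · apply (ZMod.intCast_zmod_eq_zero_iff_dvd _ h).1
          push_cast
          exact sub_eq_zero.2 (congrFun (hm.2.1.symm.trans hm.2.2) k)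
        · intro v hv hr
          have hc := hm.relF (hG g hg) hr
          obtain ⟨k, hk⟩ : ∃ k, a k ≠ 0 := by
            by_contra hcon
            push Not at hcon
            exact ha (funext hcon)
          have hd : (h : ℤ) ∣ v 0 + v 1 + v 2 := by
            apply (ZMod.intCast_zmod_eq_zero_iff_dvd _ h).1
            push_cast
            apply mul_right_cancel₀ hk
            have := hc k
            simp only [red] at this
            linear_combination this
          exact ⟨hd, le_three_nrm hd (b4 v hv hr)⟩)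
  refine this.trans ?_
  have e : (h : ℝ) ^ 5 * ((72 * (H : ℝ) ^ 2 / h) ^ 3 * (8 * (45 / (h : ℝ)) * (ell H : ℝ))) =
      72 ^ 3 * 360 * ((H : ℝ) ^ 6 * ell H * h) := by
    field_simp
    ring
  rw [e]
  have h1 : (0 : ℝ) ≤ (H : ℝ) ^ 6 * ell H * h := by positivity
  unfold CC
  push_cast
  nlinarith

/-- the residue vectors -/
def av {ι : Type} (u Y Z : ι → ℤ) (i : ι) (m : ℕ) : Z3 := ![u i + m, Y i, Z i]

lemma natCast_inj_of_lt {m m' : ℕ} (hm : m < h) (hm' : m' < h) (he : (m : ZMod h) = m') :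
    m = m' := by
  have := congrArg ZMod.val he
  rwa [ZMod.val_natCast_of_lt hm, ZMod.val_natCast_of_lt hm'] at this

open Classical in
lemma Mtau {H T : ℕ} (hT : 2 * T < h) (TT : Finset (Z3 × Z3 × Z3)) (hTT : ∀ q ∈ TT, Nd H T q)
    (G : Finset (Matrix (Fin 3) (Fin 3) (ZMod h))) (hG : ∀ g ∈ G, g.det = 1)
    {ι : Type} (u Y Z : ι → ℤ)
    (hA2 : ∀ i j, i ≠ j → (Y i : ZMod h) * Z j - Y j * Z i ≠ 0)
    (hA3 : ∀ i, ¬ ((Y i : ZMod h) = 0 ∧ (Z i : ZMod h) = 0))
    (i k : ι) (m m' m'' : ℕ) (hm : m < h) (hm' : m' < h) (hm'' : m'' < h) :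
    ∑ q ∈ TT, ((G.filter (fun g => Mt g (red h (av u Y Z i m)) (red h (av u Y Z i m'))
      (red h (av u Y Z k m'')) q)).card : ℝ) ≤
      (CC * (H : ℝ) ^ 6 * ell H) * (1 + if i = k ∧ m = m' ∧ m = m'' then (h : ℝ) else 0) := by
  have r0 : ∀ i m, red h (av u Y Z i m) 0 = (u i : ZMod h) + m := by
    intro i m; simp [red, av]
  have r1 : ∀ i m, red h (av u Y Z i m) 1 = (Y i : ZMod h) := by
    intro i m; simp [red, av]
  have r2 : ∀ i m, red h (av u Y Z i m) 2 = (Z i : ZMod h) := by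
    intro i m; simp [red, av]
  have hC : (0 : ℝ) ≤ CC * (H : ℝ) ^ 6 * ell H := by positivity
  by_cases hall : i = k ∧ m = m' ∧ m = m''
  · rw [if_pos hall]
    obtain ⟨rfl, rfl, rfl⟩ := hall
    have ha : red h (av u Y Z i m) ≠ 0 := by
      intro hz
      apply hA3 i
      rw [← r1 i m, ← r2 i m, hz]
      exact ⟨rfl, rfl⟩
    refine (M3 hT TT hTT G hG ha).trans ?_
    nlinarith
  rw [if_neg hall, add_zero, mul_one]
  by_cases hD : det3 (red h (av u Y Z i m)) (red h (av u Y Z i m')) (red h (av u Y Z k m'')) = 0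
  swap
  · exact M1 hT TT hTT G hG hD
  have hne : ∀ {s t : ℕ}, s < h → t < h → s ≠ t → (s : ZMod h) - t ≠ 0 :=
    fun hs ht hst hc => hst (natCast_inj_of_lt hs ht (sub_eq_zero.1 hc))
  by_cases hik : i = k
  · subst hik
    have hcr : ∀ {s t : ℕ}, s < h → t < h → s ≠ t →
        cr (red h (av u Y Z i s)) (red h (av u Y Z i t)) ≠ 0 := by
      intro s t hs ht hst hc
      rw [cr_eq_zero_iff] at hc
      simp only [r0, r1, r2] at hc
      apply hA3 i
      constructor
      · apply mul_left_cancel₀ (hne hs ht hst)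
        linear_combination hc.2.2
      · apply mul_left_cancel₀ (hne hs ht hst)
        linear_combination -hc.2.1
    have hsum : ∀ v : Fin 3 → ZMod h, RelF v (red h (av u Y Z i m)) (red h (av u Y Z i m'))
        (red h (av u Y Z i m'')) → v 0 + v 1 + v 2 = 0 ∧ v 0 * m + v 1 * m' + v 2 * m'' = 0 := by
      intro v hv
      have e0 := hv 0
      have e1 := hv 1
      have e2 := hv 2
      simp only [r0, r1, r2] at e0 e1 e2
      have hs : v 0 + v 1 + v 2 = 0 := by
        by_contra hc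
        apply hA3 i
        exact ⟨mul_left_cancel₀ hc (by linear_combination e1),
          mul_left_cancel₀ hc (by linear_combination e2)⟩
      exact ⟨hs, by linear_combination e0 - (u i : ZMod h) * hs⟩
    have hind : cr (red h (av u Y Z i m)) (red h (av u Y Z i m')) ≠ 0 ∨
        cr (red h (av u Y Z i m)) (red h (av u Y Z i m'')) ≠ 0 := by
      by_cases h1 : m = m'
      · exact Or.inr (hcr hm hm'' (fun h2 => hall ⟨rfl, h1, h2⟩))
      · exact Or.inl (hcr hm hm' h1)
    have hbig : ∀ v : Z3, RelF (red h v) (red h (av u Y Z i m)) (red h (av u Y Z i m'))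
        (red h (av u Y Z i m'')) → v 2 ≠ 0 → v 0 + v 1 + v 2 ≠ 0 → h ≤ 3 * nrm v := by
      intro v hv _ hs
      apply le_three_nrm _ hs
      apply (ZMod.intCast_zmod_eq_zero_iff_dvd _ h).1
      push_cast
      exact (hsum _ hv).1
    by_cases h2 : m' = m''
    · subst h2
      have h3 : m ≠ m' := fun h3 => hall ⟨rfl, h3, h3⟩
      refine M2 hT TT hTT G hG hD hind 1 ?_ hbig
      intro v v' hv hv' hj
      obtain ⟨a1, a2⟩ := hsum v hv
      obtain ⟨b1, b2⟩ := hsum v' hv'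
      have e0 : v 0 = v' 0 := by
        apply mul_left_cancel₀ (hne hm hm' h3)
        linear_combination a2 - b2 - (m' : ZMod h) * (a1 - b1)
      exact vec_ext e0 hj (by linear_combination a1 - b1 - e0 - hj)
    · refine M2 hT TT hTT G hG hD hind 0 ?_ hbig
      intro v v' hv hv' hj
      obtain ⟨a1, a2⟩ := hsum v hv
      obtain ⟨b1, b2⟩ := hsum v' hv'
      have e1 : v 1 = v' 1 := by
        apply mul_left_cancel₀ (hne hm' hm'' h2)
        linear_combination a2 - b2 - (m'' : ZMod h) * (a1 - b1) - ((m : ZMod h) - m'') * hj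
      exact vec_ext hj e1 (by linear_combination a1 - b1 - e1 - hj)
  · have hW := hA2 i k hik
    have hmm : m = m' := by
      by_contra hc
      apply mul_ne_zero (hne hm hm' hc) hW
      rw [det3_eq] at hD
      simp only [r0, r1, r2] at hD
      linear_combination hD
    subst hmm
    have hrel : ∀ v : Fin 3 → ZMod h, RelF v (red h (av u Y Z i m)) (red h (av u Y Z i m))
        (red h (av u Y Z k m'')) → v 2 = 0 ∧ v 0 + v 1 = 0 := by
      intro v hv
      have e1 := hv 1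
      have e2 := hv 2
      simp only [r1, r2] at e1 e2
      constructor
      · apply mul_left_cancel₀ hW
        linear_combination (Y i : ZMod h) * e2 - (Z i : ZMod h) * e1
      · apply mul_left_cancel₀ hW
        linear_combination (Z k : ZMod h) * e1 - (Y k : ZMod h) * e2
    refine M2 hT TT hTT G hG hD (Or.inr ?_) 0 ?_ ?_
    · intro hc
      rw [cr_eq_zero_iff] at hc
      simp only [r0, r1, r2] at hc
      apply hW
      linear_combination hc.1
    · intro v v' hv hv' hj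
      obtain ⟨a1, a2⟩ := hrel v hv
      obtain ⟨b1, b2⟩ := hrel v' hv'
      exact vec_ext hj (by linear_combination a2 - b2 - hj) (a1.trans b1.symm)
    · intro v hv h2 _
      have hd : (h : ℤ) ∣ v 2 := (ZMod.intCast_zmod_eq_zero_iff_dvd _ h).1 (hrel _ hv).1
      have h1 := Int.le_of_dvd (abs_pos.2 h2) ((dvd_abs _ _).2 hd)
      have h3 := abs_le_nrm v 2
      have h4 : (h : ℤ) ≤ 3 * (nrm v : ℤ) := by linarith [abs_nonneg (v 2)]
      exact_mod_cast h4

end Vale.Agent.P036
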