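import Vale.Agent.P036.Config
import Vale.Agent.P036.Core

namespace Vale.Agent.P036

open Finset

lemma cluster {ι : Type} (h h0 μ T : ℕ) (B E : ℤ) (X Y Z : ι → ℤ) (hh0 : 0 < h0) (hB : 0 ≤ B)
    (hE : ∀ i, |Y i| ≤ E ∧ |Z i| ≤ E)
    (hgap : ∀ i j k, i ≠ j → i ≠ k → j ≠ k → ∀ q : ℤ, (h0 : ℤ) ≤
        2 * B * |det3 ![X i, Y i, Z i] ![X j, Y j, Z j] ![X k, Y k, Z k] - q * h0|)
    (hlt : 2 * B * (T + 6 * (μ * E * E)) < h) :
    ∀ i j k, i ≠ j → i ≠ k → j ≠ k → ∀ m m' m'' : ℕ, m < μ → m' < μ → m'' < μ →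
      ∀ t : ℤ, |t| ≤ T → ¬ (h : ℤ) ∣ det3 (av (fun i => h * X i / h0) Y Z i m)
        (av (fun i => h * X i / h0) Y Z j m') (av (fun i => h * X i / h0) Y Z k m'') - t := by
  intro i j k hij hik hjk m m' m'' l1 l2 l3 t ht ⟨q, hq⟩
  have hpos : (0 : ℤ) < h0 := by exact_mod_cast hh0
  have hr : ∀ (i : ι) (m : ℕ), m < μ → ∃ ρ : ℤ, (h0 : ℤ) * (h * X i / h0 + m) = h * X i + ρ ∧
      |ρ| ≤ h0 * μ := by
    intro i m hm
    have f1 := Int.mul_ediv_add_emod (h * X i) h0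
    have f2 := Int.emod_nonneg (h * X i) hpos.ne'
    have f3 := Int.emod_lt_of_pos (h * X i) hpos
    have f4 : (m : ℤ) + 1 ≤ μ := by exact_mod_cast hm
    have f5 : (0 : ℤ) ≤ m := by positivity
    refine ⟨h0 * m - h * X i % h0, by linarith, abs_le.2 ⟨by nlinarith, by nlinarith⟩⟩
  obtain ⟨ρ1, a1, b1⟩ := hr i m l1
  obtain ⟨ρ2, a2, b2⟩ := hr j m' l2
  obtain ⟨ρ3, a3, b3⟩ := hr k m'' l3
  have herr : |det3 ![ρ1, Y i, Z i] ![ρ2, Y j, Z j] ![ρ3, Y k, Z k]| ≤ 6 * (h0 * μ * E * E) :=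
    abs_det3_le b1 b2 b3 (hE i).1 (hE j).1 (hE k).1 (hE i).2 (hE j).2 (hE k).2
  have hg := hgap i j k hij hik hjk q
  set Dc := det3 ![X i, Y i, Z i] ![X j, Y j, Z j] ![X k, Y k, Z k] with hDc
  set err := det3 ![ρ1, Y i, Z i] ![ρ2, Y j, Z j] ![ρ3, Y k, Z k] with herr'
  have hid : (h : ℤ) * (Dc - q * h0) = h0 * t - err := by
    rw [det3_eq] at hq hDc herr'
    simp only [av, Matrix.cons_val_zero, Matrix.cons_val_one, Matrix.cons_val] at hq hDc herr'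
    rw [hDc, herr']
    linear_combination (h0 : ℤ) * hq - (Y j * Z k - Y k * Z j) * a1 - (Y k * Z i - Y i * Z k) * a2
      - (Y i * Z j - Y j * Z i) * a3
  have h1 : (h : ℤ) * |Dc - q * h0| ≤ h0 * T + 6 * (h0 * μ * E * E) := by
    have : (h : ℤ) * |Dc - q * h0| = |h0 * t - err| := by
      rw [← hid, abs_mul, abs_of_nonneg (by positivity : (0 : ℤ) ≤ h)]
    rw [this]
    refine (abs_sub _ _).trans (add_le_add ?_ herr)
    rw [abs_mul, abs_of_pos hpos]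
    exact mul_le_mul_of_nonneg_left ht hpos.le
  have h2 : (h : ℤ) * h0 ≤ h * (2 * B * |Dc - q * h0|) :=
    mul_le_mul_of_nonneg_left hg (by positivity)
  have h3 : 2 * B * ((h : ℤ) * |Dc - q * h0|) ≤ 2 * B * (h0 * T + 6 * (h0 * μ * E * E)) :=
    mul_le_mul_of_nonneg_left h1 (by positivity)
  have h4 : (h0 : ℤ) * (2 * B * (T + 6 * (μ * E * E))) < h0 * h := mul_lt_mul_of_pos_left hlt hpos
  nlinarith

lemma ell_le {H r a : ℕ} (h : H ≤ 2 * r ^ a) : ell H ≤ 6 + 2 * a * r := by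
  unfold ell
  have h1 : r ^ a ≤ (2 ^ r) ^ a := Nat.pow_le_pow_left Nat.lt_two_pow_self.le a
  have h2 : 8 * H ^ 2 ≤ 2 ^ (5 + 2 * a * r) := by
    calc 8 * H ^ 2 ≤ 8 * (2 * (2 ^ r) ^ a) ^ 2 := by gcongr; omega
      _ = 2 ^ (5 + 2 * a * r) := by
        rw [mul_pow, ← pow_mul, ← pow_mul, pow_add]
        have : r * (a * 2) = 2 * a * r := by ring
        rw [this]
        ring
  have h3 := Nat.log_mono_right (b := 2) h2
  rw [Nat.log_pow (by norm_num)] at h3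
  omega

theorem params : ∃ N K1 : ℕ, 1 ≤ N ∧ ∀ r : ℕ, r.Prime → K1 ≤ r →
    ∃ (H T : ℕ) (W : Finset Z3), 0 < H ∧ W ⊆ box H ∧ r ^ N ≤ W.card ∧
      (∀ x ∈ W, ∀ y ∈ W, x ≠ y → cr x y ≠ 0) ∧
      (∀ x ∈ W, ∀ y ∈ W, ∀ z ∈ W, x ≠ y → x ≠ z → y ≠ z → (T : ℤ) < |det3 x y z|) ∧
      16 * H ^ 3 ≤ T * r ^ (2 * N - 1) := by
  obtain ⟨e, K0, hcore⟩ := core
  refine ⟨22 * e + 34, K0 + 4 * CC * (6 + 2 * (16 * e + 23)) + 128, by omega, fun r hr hr0 => ?_⟩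
  obtain ⟨ι, _, h0, X, Y, Z, hcard, hh0, hE, hYZ, hgap⟩ := hcore r hr (by omega)
  have hr1 : 1 ≤ r := by omega
  have hr128 : 128 ≤ r := by omega
  have hrC : 4 * CC * (6 + 2 * (16 * e + 23)) ≤ r := by omega
  have pw : ∀ {a b : ℕ}, a ≤ b → r ^ a ≤ r ^ b := fun hab => Nat.pow_le_pow_right hr1 hab
  have pw1 : ∀ {c a b : ℕ}, c ≤ 128 → a + 1 ≤ b → c * r ^ a ≤ r ^ b := by
    intro c a b hc hab
    calc c * r ^ a ≤ r * r ^ a := Nat.mul_le_mul_right _ (by omega)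
      _ = r ^ (a + 1) := by ring
      _ ≤ _ := pw hab
  obtain ⟨h, hh, hh1, hh2⟩ := Nat.exists_prime_lt_and_le_two_mul (r ^ (4 * e + 8))
    (by positivity)
  set κ := r ^ (12 * e + 15) with hκ
  have hκ1 : 1 ≤ κ := Nat.one_le_pow _ _ hr1
  have hH0 : 0 < κ * h := Nat.mul_pos hκ1 hh.pos
  obtain ⟨p, hp, hp1, hp2⟩ := Nat.exists_prime_lt_and_le_two_mul (4 * (κ * h)) (by omega)
  have hHle : κ * h ≤ 2 * r ^ (16 * e + 23) := by
    calc κ * h ≤ κ * (2 * r ^ (4 * e + 8)) := Nat.mul_le_mul_left _ hh2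
      _ = _ := by rw [hκ]; ring
  obtain ⟨W, w1, w2, w3, w4⟩ := config h p hh hp (r ^ (2 * e + 2)) κ (r ^ (4 * e + 3))
    (fun i => h * X i / h0) Y Z ((pw (by omega)).trans hh1.le)
    (lt_of_le_of_lt (pw1 (by norm_num) (by omega)) hh1) hκ1
    (by
      apply cluster h h0 _ _ ((r : ℤ) ^ 4) ((r : ℤ) ^ e) X Y Z hh0 (by positivity) hE hgap
      have a1 : 2 * r ^ 4 * (r ^ (4 * e + 3) + 6 * (r ^ (2 * e + 2) * r ^ e * r ^ e)) < h := by
        refine lt_of_le_of_lt ?_ hh1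
        have b1 : r ^ (4 * e + 6) ≤ r ^ (4 * e + 7) := pw (by omega)
        calc 2 * r ^ 4 * (r ^ (4 * e + 3) + 6 * (r ^ (2 * e + 2) * r ^ e * r ^ e))
            = 2 * r ^ (4 * e + 7) + 12 * r ^ (4 * e + 6) := by ring
          _ ≤ 14 * r ^ (4 * e + 7) := by omega
          _ ≤ _ := pw1 (by norm_num) (by omega)
      exact_mod_cast a1)
    (by
      intro i j hij hd
      apply hYZ i j hij
      apply Int.eq_zero_of_abs_lt_dvd hd
      refine lt_of_le_of_lt (abs_mul_sub_le (hE i).1 (hE j).2 (hE j).1 (hE i).2) ?_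
      have a1 : 2 * r ^ e * r ^ e < h := by
        refine lt_of_le_of_lt ?_ hh1
        calc 2 * r ^ e * r ^ e = 2 * r ^ (2 * e) := by ring
          _ ≤ _ := pw1 (by norm_num) (by omega)
      exact_mod_cast a1)
    (by
      rw [hcard]
      calc 2 ≤ r ^ 1 := by rw [pow_one]; omega
        _ ≤ _ := pw (by norm_num))
    (by
      rw [hcard]
      calc h ≤ 2 * r ^ (4 * e + 8) := hh2
        _ ≤ r ^ (4 * e + 15) := pw1 (by norm_num) (by omega)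
        _ = _ := by ring)
    hp1
    (by
      rw [hcard]
      have a1 := ell_le hHle
      have a2 : 4 * CC * (6 + 2 * (16 * e + 23) * r) ≤ r ^ 2 := by
        calc 4 * CC * (6 + 2 * (16 * e + 23) * r) ≤ 4 * CC * (6 * r + 2 * (16 * e + 23) * r) := by
              gcongr; omega
          _ = 4 * CC * (6 + 2 * (16 * e + 23)) * r := by ring
          _ ≤ r * r := Nat.mul_le_mul_right _ hrC
          _ = r ^ 2 := by ring
      calc 2 * CC * ell (κ * h) * (κ * h) * r ^ 11 * (r ^ (2 * e + 2)) ^ 2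
          ≤ 2 * CC * (6 + 2 * (16 * e + 23) * r) * (2 * r ^ (16 * e + 23)) * r ^ 11 *
            (r ^ (2 * e + 2)) ^ 2 := by gcongr
        _ = (4 * CC * (6 + 2 * (16 * e + 23) * r)) * r ^ (20 * e + 38) := by ring
        _ ≤ r ^ 2 * r ^ (20 * e + 38) := Nat.mul_le_mul_right _ a2
        _ = (r ^ (4 * e + 8)) ^ 5 := by ring
        _ ≤ h ^ 5 := Nat.pow_le_pow_left hh1.le 5)
  refine ⟨κ * h, r ^ (4 * e + 3), W, hH0, w1, ?_, w3, w4, ?_⟩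
  · rw [hcard] at w2
    have a1 : 2 * p ≤ r ^ (16 * e + 24) := by
      calc 2 * p ≤ 32 * r ^ (16 * e + 23) := by omega
        _ ≤ _ := pw1 (by norm_num) (by omega)
    have a2 : r ^ (16 * e + 24) * r ^ (22 * e + 34) ≤ r ^ (16 * e + 24) * W.card := by
      calc r ^ (16 * e + 24) * r ^ (22 * e + 34) = r ^ 11 * r ^ (2 * e + 2) * κ ^ 3 := by
            rw [hκ]; ring
        _ ≤ 2 * p * W.card := w2
        _ ≤ _ := Nat.mul_le_mul_right _ a1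
    exact Nat.le_of_mul_le_mul_left a2 (by positivity)
  · have : 2 * (22 * e + 34) - 1 = 44 * e + 67 := by omega
    rw [this]
    calc 16 * (κ * h) ^ 3 ≤ 16 * (2 * r ^ (16 * e + 23)) ^ 3 := by gcongr
      _ = 128 * r ^ (48 * e + 69) := by ring
      _ ≤ r ^ (48 * e + 70) := pw1 (by norm_num) (by omega)
      _ = _ := by ring

theorem plane_config : ∃ η : ℝ, 0 < η ∧ ∃ c : ℝ, 0 < c ∧ ∀ n : ℕ, 1 ≤ n →
    ∃ P : Finset (ℝ × ℝ), P.card = n ∧ (∀ p ∈ P, p.1 ∈ Set.Icc (0 : ℝ) 1 ∧ p.2 ∈ Set.Icc (0 : ℝ) 1) ∧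
      ∀ p ∈ P, ∀ q ∈ P, ∀ r ∈ P, p ≠ q → p ≠ r → q ≠ r → c * (n : ℝ) ^ (-2 + η) ≤
        |(q.1 - p.1) * (r.2 - p.2) - (q.2 - p.2) * (r.1 - p.1)| / 2 := by
  classical
  obtain ⟨N, K1, hN, hpar⟩ := params
  have hNr : (0 : ℝ) < N := by exact_mod_cast hN
  refine ⟨1 / N, by positivity, 1 / (2 * ((K1 : ℝ) + 2)) ^ (2 * N - 1), by positivity,
    fun n hn => ?_⟩
  have hnr : (1 : ℝ) ≤ n := by exact_mod_cast hn
  set ρ : ℝ := (n : ℝ) ^ ((N : ℝ)⁻¹) with hρ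
  have hρ1 : 1 ≤ ρ := Real.one_le_rpow hnr (by positivity)
  have hρN : ρ ^ N = n := Real.rpow_inv_natCast_pow (by positivity) (by omega)
  have hceil : 1 ≤ ⌈ρ⌉₊ := Nat.ceil_pos.2 (by linarith)
  obtain ⟨r, hr, hr1, hr2⟩ := Nat.exists_prime_lt_and_le_two_mul (⌈ρ⌉₊ + K1) (by omega)
  obtain ⟨H, T, W, hH, hbox, hcard, hnp, hdet, hT⟩ := hpar r hr (by omega)
  have hρr : ρ ≤ r := (Nat.le_ceil ρ).trans (by exact_mod_cast (by omega : ⌈ρ⌉₊ ≤ r))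
  have hrρ : (r : ℝ) ≤ 2 * ((K1 : ℝ) + 2) * ρ := by
    have a1 : (r : ℝ) ≤ 2 * ((⌈ρ⌉₊ : ℝ) + K1) := by exact_mod_cast hr2
    have a2 := (Nat.ceil_lt_add_one (by linarith : 0 ≤ ρ)).le
    have a3 : (0 : ℝ) ≤ K1 := by positivity
    nlinarith
  have hnW : n ≤ W.card := by
    refine le_trans ?_ hcard
    have : (n : ℝ) ≤ (r : ℝ) ^ N := by
      rw [← hρN]
      exact pow_le_pow_left₀ (by linarith) hρr N
    exact_mod_cast this
  obtain ⟨W0, hW0, hW0c⟩ := exists_subset_card_eq hnW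
  set φ : Z3 → ℝ × ℝ := fun x => ((x 0 : ℝ) / x 2, (x 1 : ℝ) / x 2) with hφ
  have hHr : (0 : ℝ) < H := by exact_mod_cast hH
  have hb : ∀ x ∈ W, (0 : ℝ) ≤ x 0 ∧ (x 0 : ℝ) ≤ x 2 ∧ (0 : ℝ) ≤ x 1 ∧ (x 1 : ℝ) ≤ x 2 ∧
      (0 : ℝ) < x 2 ∧ (x 2 : ℝ) ≤ 2 * H := by
    intro x hx
    obtain ⟨⟨a1, a2⟩, ⟨a3, a4⟩, a5, a6⟩ := mem_box.1 (hbox hx)
    refine ⟨by exact_mod_cast a1, by exact_mod_cast (by linarith : x 0 ≤ x 2),
      by exact_mod_cast a3, by exact_mod_cast (by linarith : x 1 ≤ x 2),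
      by exact_mod_cast (by linarith : 0 < x 2), by exact_mod_cast a6.le⟩
  have hinj : Set.InjOn φ W0 := by
    intro x hx y hy he
    by_contra hne
    apply hnp x (hW0 hx) y (hW0 hy) hne
    have x2 := (hb x (hW0 hx)).2.2.2.2.1
    have y2 := (hb y (hW0 hy)).2.2.2.2.1
    simp only [hφ, Prod.mk.injEq] at he
    rw [div_eq_div_iff x2.ne' y2.ne', div_eq_div_iff x2.ne' y2.ne'] at he
    have e0 : x 0 * y 2 = y 0 * x 2 := by exact_mod_cast he.1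
    have e1 : x 1 * y 2 = y 1 * x 2 := by exact_mod_cast he.2
    have x2' : x 2 ≠ 0 := by exact_mod_cast x2.ne'
    rw [cr_eq_zero_iff]
    refine ⟨by linarith, by linarith, mul_left_cancel₀ x2' ?_⟩
    linear_combination x 1 * e0 - x 0 * e1
  refine ⟨W0.image φ, by rw [card_image_of_injOn hinj, hW0c], ?_, ?_⟩
  · intro p hp
    obtain ⟨x, hx, rfl⟩ := mem_image.1 hp
    obtain ⟨a1, a2, a3, a4, a5, _⟩ := hb x (hW0 hx)
    exact ⟨⟨div_nonneg a1 a5.le, (div_le_one a5).2 a2⟩, div_nonneg a3 a5.le, (div_le_one a5).2 a4⟩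
  · intro p hp q hq s hs hpq hps hqs
    obtain ⟨x, hx, rfl⟩ := mem_image.1 hp
    obtain ⟨y, hy, rfl⟩ := mem_image.1 hq
    obtain ⟨z, hz, rfl⟩ := mem_image.1 hs
    have hd := hdet x (hW0 hx) y (hW0 hy) z (hW0 hz) (fun h => hpq (by rw [h]))
      (fun h => hps (by rw [h])) (fun h => hqs (by rw [h]))
    obtain ⟨_, _, _, _, x2, x2'⟩ := hb x (hW0 hx)
    obtain ⟨_, _, _, _, y2, y2'⟩ := hb y (hW0 hy)
    obtain ⟨_, _, _, _, z2, z2'⟩ := hb z (hW0 hz)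
    have e1 : ((φ y).1 - (φ x).1) * ((φ z).2 - (φ x).2) - ((φ y).2 - (φ x).2) * ((φ z).1 - (φ x).1)
        = ((det3 x y z : ℤ) : ℝ) / ((x 2 : ℝ) * y 2 * z 2) := by
      simp only [hφ, det3_eq]
      push_cast
      field_simp
      ring
    have hd' : (T : ℝ) ≤ |((det3 x y z : ℤ) : ℝ)| := by exact_mod_cast hd.le
    have hT' : 16 * (H : ℝ) ^ 3 ≤ T * (r : ℝ) ^ (2 * N - 1) := by exact_mod_cast hT
    have hr0 : (0 : ℝ) < r := by linarith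
    have hprod : (0 : ℝ) < (x 2 : ℝ) * y 2 * z 2 := by positivity
    have hprod' : (x 2 : ℝ) * y 2 * z 2 ≤ 8 * (H : ℝ) ^ 3 := by
      calc (x 2 : ℝ) * y 2 * z 2 ≤ (2 * H) * (2 * H) * (2 * H) := by gcongr
        _ = _ := by ring
    have e2 : (n : ℝ) ^ (-2 + 1 / (N : ℝ)) = 1 / ρ ^ (2 * N - 1) := by
      rw [hρ, ← Real.rpow_natCast, ← Real.rpow_mul (by positivity), one_div, one_div,
        ← Real.rpow_neg (by positivity)]
      congr 1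
      rw [Nat.cast_sub (by omega)]
      push_cast
      field_simp
      ring
    rw [e1, e2, abs_div, abs_of_pos hprod]
    calc 1 / (2 * ((K1 : ℝ) + 2)) ^ (2 * N - 1) * (1 / ρ ^ (2 * N - 1))
        = 1 / (2 * ((K1 : ℝ) + 2) * ρ) ^ (2 * N - 1) := by
          rw [mul_pow (2 * ((K1 : ℝ) + 2)) ρ]; field_simp
      _ ≤ 1 / (r : ℝ) ^ (2 * N - 1) :=
          one_div_le_one_div_of_le (by positivity) (pow_le_pow_left₀ hr0.le hrρ _)
      _ ≤ T / (8 * (H : ℝ) ^ 3) / 2 := by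
          rw [div_div, div_le_div_iff₀ (by positivity) (by positivity)]
          linarith
      _ ≤ _ := by gcongr

end Vale.Agent.P036
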